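import Crest.Agent.X212.Abel74.Defs
import Crest.Agent.X212.Std94.Gau
import Crest.Agent.X212.Wz78.Mu

/-! Pointwise algebra at a point of type S with `Φ ≠ 0`. -/

set_option autoImplicit false
set_option linter.unusedSectionVars false
noncomputable section
open scoped Manifold ContDiff Topology InnerProductSpace
open Finset Quaternion

namespace Crest.Agent.X212.Top68
open An Wz78 Abel74
open Std94 (S4 mk4 ext4 Xi ui Fx tq r0 J0 k0 Rm mk4_0 mk4_1 mk4_2 mk4_3)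

variable {E : Type} [NormedAddCommGroup E] [NormedSpace ℝ E] [FiniteDimensional ℝ E]
  [MeasurableSpace E] [BorelSpace E]
  {HM : Type} [TopologicalSpace HM] {I : ModelWithCorners ℝ E HM}
  {M : Type} [TopologicalSpace M] [ChartedSpace HM M] [IsManifold I ∞ M]
  [MeasurableSpace M] {ι : Type} [Fintype ι] {lam : Type} [Fintype lam]

/-- the other half -/
def hg (m : Md M ι lam) (x : M) (ξ : m.A) : En (Fin m.N) := m.p x - hf m x ξ

/-- the projector onto the line of `ξ` -/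
def gt {κ : Type} [Fintype κ] (ξ : Eu κ) : En κ := (1 / 16 : ℝ) • rk1 ξ ξ

theorem gt_apply {κ : Type} [Fintype κ] (ξ η : Eu κ) : gt ξ η = (⟪ξ, η⟫_ℝ / 16) • ξ := by
  rw [gt, smul_apply, show rk1 ξ ξ η = ⟪ξ, η⟫_ℝ • ξ from rfl, smul_smul]
  congr 1
  ring

variable (I) in
/-- a point of type S with a nonzero spinor -/
structure SP (B : Base M ι lam) (m : Md M ι lam) (x : M) (ξ : m.A) (Φ : m.V) : Prop where
  hB : B.OK I
  H : m.OK I B
  mem : ξ ∈ m.gS x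
  sq : opL ξ * opL ξ = -m.p x
  pos : m.pp B x Φ = Φ
  eig : opL ξ Φ = m.J Φ
  ne : Φ ≠ 0

theorem ap {κ : Type} [Fintype κ] {S T : En κ} (e : S = T) (v : Eu κ) : S v = T v := by rw [e]

namespace SP
variable {m : Md M ι lam} {B : Base M ι lam} {x : M} {ξ η : m.A} {Φ v w : m.V}
  (h : SP I B m x ξ Φ)
include h

theorem nsq : ⟪ξ, ξ⟫_ℝ = 16 := by rw [real_inner_self_eq_norm_sq, norm_sq h.H h.mem h.sq]
theorem p_of_pp (hv : m.pp B x v = v) : m.p x v = v := by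
  rw [← hv]; exact ap (p_pp h.H x) v
theorem p_of_pm (hv : m.pm B x v = v) : m.p x v = v := by
  rw [← hv]; exact ap (p_pm h.H x) v
theorem pΦ : m.p x Φ = Φ := h.p_of_pp h.pos
theorem hfΦ : hf m x ξ Φ = Φ := hf_fix h.H h.mem h.pΦ h.eig
theorem hf_hf (v : m.V) : hf m x ξ (hf m x ξ v) = hf m x ξ v := ap (Abel74.hf_hf h.H h.mem h.sq) v
theorem hf_s : Sym (hf m x ξ) := hf_sym h.H h.mem
theorem p_hf (v : m.V) : m.p x (hf m x ξ v) = hf m x ξ v := ap (Abel74.p_hf h.H h.mem) v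
theorem hf_p (v : m.V) : hf m x ξ (m.p x v) = hf m x ξ v :=
  ext_inner_left ℝ fun w => by rw [← h.hf_s, ← h.H.psym, h.p_hf, h.hf_s]
theorem hf_ρ (a : ι) (v : m.V) : hf m x ξ (m.ρ a x v) = m.ρ a x (hf m x ξ v) :=
  (ap (rho_hf h.H h.mem a) v).symm
theorem hf_J (v : m.V) : hf m x ξ (m.J v) = m.J (hf m x ξ v) := (ap (J_hf h.H h.mem) v).symm
theorem hf_pp (v : m.V) : hf m x ξ (m.pp B x v) = m.pp B x (hf m x ξ v) :=
  (ap (hf_comm h.H h.mem (by rw [pp_p h.H, p_pp h.H]) (J_pp h.H x).symm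
    (g_pp h.H h.mem).symm) v).symm
theorem hf_pm (v : m.V) : hf m x ξ (m.pm B x v) = m.pm B x (hf m x ξ v) :=
  (ap (hf_comm h.H h.mem (by rw [pm_p h.H, p_pm h.H]) (J_pm h.H x).symm
    (g_pm h.H h.mem).symm) v).symm
omit h in
theorem hg_apply (v : m.V) : hg m x ξ v = m.p x v - hf m x ξ v := rfl
theorem hg_s : Sym (hg m x ξ) := fun v w => by
  simp only [hg_apply, inner_sub_left, inner_sub_right, h.H.psym x v, h.hf_s v]
theorem hf_hg (v : m.V) : hf m x ξ (hg m x ξ v) = 0 := by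
  rw [hg_apply, map_sub, h.hf_p, h.hf_hf, sub_self]
theorem hg_hf (v : m.V) : hg m x ξ (hf m x ξ v) = 0 := by rw [hg_apply, h.p_hf, h.hf_hf, sub_self]
theorem p_hg (v : m.V) : m.p x (hg m x ξ v) = hg m x ξ v := by
  rw [hg_apply, map_sub, h.p_hf, show m.p x (m.p x v) = m.p x v from ap (h.H.pidem x) v]
theorem hg_hg (v : m.V) : hg m x ξ (hg m x ξ v) = hg m x ξ v := by
  rw [hg_apply (hg m x ξ v), h.p_hg, h.hf_hg, sub_zero]
theorem hg_ρ (a : ι) (v : m.V) : hg m x ξ (m.ρ a x v) = m.ρ a x (hg m x ξ v) := by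
  rw [hg_apply, hg_apply, map_sub, h.hf_ρ, show m.p x (m.ρ a x v) = m.ρ a x v from
    ap ((h.H.cl x).pl a) v, show m.ρ a x (m.p x v) = m.ρ a x v from ap ((h.H.cl x).pr a) v]
theorem hg_J (v : m.V) : hg m x ξ (m.J v) = m.J (hg m x ξ v) := by
  rw [hg_apply, hg_apply, map_sub, h.hf_J, show m.J (m.p x v) = m.p x (m.J v) from ap (h.H.Jp x) v]
theorem hg_pp (v : m.V) : hg m x ξ (m.pp B x v) = m.pp B x (hg m x ξ v) := by
  rw [hg_apply, hg_apply, map_sub, h.hf_pp, show m.p x (m.pp B x v) = _ from ap (p_pp h.H x) v,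
    show m.pp B x (m.p x v) = _ from ap (pp_p h.H x) v]
theorem hg_pm (v : m.V) : hg m x ξ (m.pm B x v) = m.pm B x (hg m x ξ v) := by
  rw [hg_apply, hg_apply, map_sub, h.hf_pm, show m.p x (m.pm B x v) = _ from ap (p_pm h.H x) v,
    show m.pm B x (m.p x v) = _ from ap (pm_p h.H x) v]
theorem hf_j (s : Eu lam) (v : m.V) : hf m x ξ (m.j x s v) = m.j x s (hg m x ξ v) := by
  rw [hg_apply, map_sub, show m.j x s (m.p x v) = _ from ap (j_p h.H x s) v, eq_sub_iff_add_eq,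
    add_comm]
  exact ap (j_hf h.H h.mem s) v
theorem hg_j (s : Eu lam) (v : m.V) : hg m x ξ (m.j x s v) = m.j x s (hf m x ξ v) := by
  rw [hg_apply, show m.p x (m.j x s v) = _ from ap (h.H.pj x s) v, sub_eq_iff_eq_add]
  exact (ap (j_hf h.H h.mem s) v).symm
theorem orth (hv : hf m x ξ v = v) (hw : hg m x ξ w = w) : ⟪v, w⟫_ℝ = 0 := by
  rw [← hv, h.hf_s, ← hw, h.hf_hg, inner_zero_right]
theorem xi_hg (hv : hg m x ξ v = v) : opL ξ v = -m.J v := by
  have e0 : hf m x ξ v = 0 := by rw [← hv, h.hf_hg]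
  have e1 : m.p x v = v := by rw [← hv, h.p_hg]
  have e2 : m.J (m.J (opL ξ v)) = -opL ξ v := ap h.H.Jsq _
  rw [hf, smul_apply, smul_eq_zero_iff_right (by norm_num), sub_apply, sub_eq_zero, e1] at e0
  rw [← neg_inj, neg_neg, ← e2]
  exact congrArg _ e0.symm

/-- elements of `g` orthogonal to `ξ` exchange the halves -/
theorem hf_perp (hη : η ∈ m.gS x) (h0 : ⟪ξ, η⟫_ℝ = 0) (v : m.V) :
    hf m x ξ (opL η v) = opL η (hg m x ξ v) := by
  have e := ap (g_anti h.hB h.H h.mem hη) v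
  rw [h0, neg_zero, zero_div, zero_smul, add_apply, zero_apply, add_eq_zero_iff_eq_neg] at e
  have e1 : opL ξ (opL η v) = -opL η (opL ξ v) := e
  have e2 : ∀ y, m.J (opL η y) = opL η (m.J y) := ap (g_J hη)
  have e3 : m.p x (opL η v) = opL η v := ap (g_p hη) v
  have e4 : opL η (m.p x v) = opL η v := ap (g_p' h.H hη) v
  simp only [hg_apply, hf, smul_apply, sub_apply, mul_apply_eq_comp, map_sub, map_smul, e1, e2, e3,
    e4, map_neg]
  module

theorem hg_perp (hη : η ∈ m.gS x) (h0 : ⟪ξ, η⟫_ℝ = 0) (v : m.V) :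
    hg m x ξ (opL η v) = opL η (hf m x ξ v) := by
  rw [hg_apply, h.hf_perp hη h0, hg_apply, map_sub, show m.p x (opL η v) = _ from ap (g_p hη) v,
    show opL η (m.p x v) = _ from ap (g_p' h.H hη) v, sub_sub_cancel]

theorem inner_gΦ (hη : η ∈ m.gS x) {ζ : m.A} (hζ : ζ ∈ m.gS x) (hv : m.p x v = v) :
    ⟪opL η v, opL ζ v⟫_ℝ = ⟪η, ζ⟫_ℝ / 16 * ⟪v, v⟫_ℝ := by
  have e := congrArg (fun T : En (Fin m.N) => ⟪v, T v⟫_ℝ) (g_anti h.hB h.H hη hζ)
  simp only [add_apply, mul_apply_eq_comp, inner_add_right, smul_apply, real_inner_smul_right,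
    hv] at e
  have e1 := g_skw hη v (opL ζ v)
  have e2 := g_skw hζ v (opL η v)
  rw [real_inner_comm] at e2
  linarith

theorem eq_zero_of_apply (hη : η ∈ m.gS x) (hv : m.p x v = v) (h0 : v ≠ 0) (e : opL η v = 0) :
    η = 0 := by
  have := h.inner_gΦ hη hη hv
  rw [e, inner_zero_left, eq_comm, mul_eq_zero, div_eq_zero_iff] at this
  simpa [h0] using this

theorem q_gΦ (hη : η ∈ m.gS x) : m.q x (opL η Φ) Φ = (⟪Φ, Φ⟫_ℝ / 16) • η := by
  refine ext_inner_left ℝ fun ζ => ?_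
  rw [inner_q, h.inner_gΦ (pg_mem x ζ) hη h.pΦ, inner_pg, pg_of_mem hη, real_inner_smul_right]
  ring

theorem perp_mem (hη : η ∈ m.gS x) : η - gt ξ η ∈ m.gS x := by
  rw [gt_apply]; exact sub_mem hη (Submodule.smul_mem _ _ h.mem)

theorem perp_inner (η : m.A) : ⟪ξ, η - gt ξ η⟫_ℝ = 0 := by
  rw [gt_apply, inner_sub_right, real_inner_smul_right, h.nsq]; ring

/-- an element of `g` which keeps `Φ` in its half is a multiple of `ξ` -/
theorem tang (hη : η ∈ m.gS x) (e : hg m x ξ (opL η Φ) = 0) : gt ξ η = η := by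
  have e1 := h.hg_perp (h.perp_mem hη) (h.perp_inner η) Φ
  rw [h.hfΦ, map_sub, sub_apply, map_sub, e, gt_apply, map_smul, smul_apply, map_smul, h.eig,
    h.hg_J, ← h.hfΦ, h.hg_hf, h.hfΦ, map_zero, smul_zero, sub_zero] at e1
  refine (sub_eq_zero.1 (h.eq_zero_of_apply (h.perp_mem hη) h.pΦ h.ne ?_)).symm
  rw [map_sub, sub_apply, gt_apply, map_smul, smul_apply, h.eig, ← e1]

theorem frame : ∃ U s₀ u, Fx B m x U s₀ u ∧ ∃ c a : ℍ, c.re = 0 ∧ c * c = -1 ∧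
    opL ξ = Xi u u c ∧ Φ = u (mk4 a 0 (a * c) 0) ∧ a ≠ 0 ∧
    (∀ v, hf m x ξ v = v → ∃ y z, v = u (mk4 y z (y * c) (z * c))) ∧
    ∀ v, hg m x ξ v = v → ∃ y z, v = u (mk4 y z (-(y * c)) (-(z * c))) := by
  obtain ⟨U, s₀, u, F⟩ := Std94.exists_fx h.hB (Std94.pmx h.H x)
  obtain ⟨c, hc, e⟩ := (F.mem_g_iff ξ).1 h.mem
  have e' : opL ξ = Xi u u c := by rw [e, opL_hsL]
  have cc : c * c = -1 := Std94.Xi_inj u u (by
    rw [← Std94.Xi_mul, ← e', h.sq, map_neg, F.Xi_one])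
  have sc : star c = -c := by ext <;> simp [hc]
  have k1 : ∀ v, hf m x ξ v = v → ∃ y z, v = u (mk4 y z (y * c) (z * c)) := fun v hv => by
    have a1 : u (ui u v) = v := by rw [F.u_ui, ← hv, h.p_hf]
    have a2 := xi_of_hf h.H h.mem h.sq hv
    rw [← a1, e', Std94.Xi_u, F.J_u, u.map_eq_iff] at a2
    have b0 : ui u v 0 * star c = -ui u v 2 := congrArg (fun y : S4 => y 0) a2
    have b1 : ui u v 1 * star c = -ui u v 3 := congrArg (fun y : S4 => y 1) a2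
    rw [sc, mul_neg, neg_inj] at b0 b1
    exact ⟨_, _, a1.symm.trans (congrArg u (ext4 rfl rfl b0.symm b1.symm))⟩
  have k2 : ∀ v, hg m x ξ v = v → ∃ y z, v = u (mk4 y z (-(y * c)) (-(z * c))) := fun v hv => by
    have a1 : u (ui u v) = v := by rw [F.u_ui, ← hv, h.p_hg]
    have a2 := h.xi_hg hv
    rw [← a1, e', Std94.Xi_u, F.J_u, ← map_neg, u.map_eq_iff] at a2
    have b0 : ui u v 0 * star c = - -ui u v 2 := congrArg (fun y : S4 => y 0) a2
    have b1 : ui u v 1 * star c = - -ui u v 3 := congrArg (fun y : S4 => y 1) a2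
    rw [sc, mul_neg, neg_neg] at b0 b1
    exact ⟨_, _, a1.symm.trans (congrArg u (ext4 rfl rfl b0.symm b1.symm))⟩
  obtain ⟨a, z, ha⟩ := k1 Φ h.hfΦ
  have hz : z = 0 := by
    have := h.pos
    rw [ha, F.pp_u, u.map_eq_iff] at this
    exact (congrArg (fun y : S4 => y 1) this).symm
  subst hz
  refine ⟨U, s₀, u, F, c, a, hc, cc, e', by simpa using ha, fun h0 => h.ne ?_, k1, k2⟩
  rw [ha, h0, ← map_zero u]
  exact congrArg u (ext4 rfl rfl (by simp) (by simp))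

omit h in
theorem inner_c {c : ℍ} (hc : c.re = 0) (cc : c * c = -1) (a b : ℍ) :
    ⟪a * c, b * c⟫_ℝ = ⟪a, b⟫_ℝ := by
  have sc : c = star (-c) := by ext <;> simp [hc]
  conv_lhs => rw [sc, Std94.inner_mul_star, ← sc, mul_neg, mul_assoc, cc]
  simp

/-- Parseval identity on negative spinors -/
theorem par1 (h1 : hf m x ξ w = w) (h2 : m.pm B x w = w) :
    ∑ b, ⟪m.ρ b x Φ, w⟫_ℝ • m.ρ b x Φ = ⟪Φ, Φ⟫_ℝ • w := by
  obtain ⟨U, s₀, u, F, c, a, hc, cc, -, rfl, -, k1, -⟩ := h.frame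
  obtain ⟨y, z, rfl⟩ := k1 w h1
  rw [F.pm_u, u.map_eq_iff] at h2
  obtain rfl : 0 = y := congrArg (fun y : S4 => y 0) h2
  have e : ∀ t : ℍ, ∑ b, ⟪star (tq U b), t⟫_ℝ • star (tq U b) = t := fun t => by
    have i1 : ∀ b (t : ℍ), ⟪star (tq U b), t⟫_ℝ = ∑ i, U i b * ![t.re, -t.imI, -t.imJ, -t.imK] i :=
      fun b t => by simp [tq, Std94.inner_q, Fin.sum_univ_four]
    refine ext_inner_right ℝ fun s => ?_
    simp only [sum_inner, real_inner_smul_left, i1, sum_mul_sum]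
    have k : ∀ (τ σ : Fin 4 → ℝ), ∑ b, ∑ i, ∑ j, U i b * τ i * (U j b * σ j) = ∑ i, τ i * σ i :=
      fun τ σ => by
        rw [sum_comm]
        refine sum_congr rfl fun i _ => ?_
        rw [sum_comm, sum_congr rfl fun j _ => (sum_congr rfl fun b _ =>
          mul_mul_mul_comm (U i b) (τ i) (U j b) (σ j)).trans (sum_mul _ _ _).symm]
        simp [F.of.on]
    rw [k]
    simp [Std94.inner_q, Fin.sum_univ_four]
  have e1 : ∀ b, ⟪m.ρ b x (u (mk4 a 0 (a * c) 0)), u (mk4 0 z (0 * c) (z * c))⟫_ℝ =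
      2 * ⟪star (tq U b), z * star a⟫_ℝ := fun b => by
    rw [F.rho_u, u.inner_map_map, Std94.inner4, ← Std94.inner_mul_star, star_star]
    simp only [Std94.r0_apply, mk4_0, mk4_1, mk4_2, mk4_3, ← mul_assoc, inner_c hc cc]
    simp
    ring
  have e2 : ∑ b, (2 * ⟪star (tq U b), z * star a⟫_ℝ) • (star (tq U b) * a) =
      (2 * ⟪a, a⟫_ℝ) • z := by
    simp only [mul_smul, ← smul_sum, ← smul_mul_assoc, ← sum_mul, e]
    rw [mul_assoc, star_mul_self, mul_coe_eq_smul, inner_self, smul_comm]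
  simp only [e1]
  simp only [F.rho_u, u.inner_map_map, ← map_smul, ← map_sum, u.map_eq_iff, Std94.inner4, mk4_0,
    mk4_1, mk4_2, mk4_3, inner_c hc cc, inner_zero_left, add_zero, ← two_mul]
  refine ext4 ?_ ?_ ?_ ?_ <;>
    simp only [WithLp.ofLp_sum, Finset.sum_apply, PiLp.smul_apply, Std94.r0_apply, mk4_0, mk4_1,
      mk4_2, mk4_3]
  · simp
  · simpa only [mul_smul_comm] using e2
  · simp
  · simp only [mul_smul_comm, ← mul_assoc]
    simp only [← smul_mul_assoc (_ : ℝ) (_ * a), ← sum_mul, e2]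
    rw [smul_mul_assoc]

/-- Parseval identity on positive spinors -/
theorem par2 (h1 : hf m x ξ v = v) (h2 : m.pp B x v = v) :
    ∑ a, ∑ b, ⟪m.ρ a x (m.ρ b x Φ), v⟫_ℝ • m.ρ a x (m.ρ b x Φ) = (4 * ⟪Φ, Φ⟫_ℝ) • v := by
  have e : ∀ a, ∑ b, ⟪m.ρ a x (m.ρ b x Φ), v⟫_ℝ • m.ρ a x (m.ρ b x Φ) =
      (B.P a a x * ⟪Φ, Φ⟫_ℝ) • v := fun a => by
    have := congrArg (m.ρ a x) (h.par1 (w := m.ρ a x v) (by rw [h.hf_ρ, h1])
      ((ap (pm_rho h.hB h.H a x) _).trans (congrArg _ h2)))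
    have e2 := ap ((h.H.cl x).rel a a) v
    simp only [add_apply, mul_apply_eq_comp, smul_apply, h.p_of_pp h2] at e2
    have e3 : m.ρ a x (m.ρ a x v) = -(B.P a a x • v) :=
      smul_right_injective _ (two_ne_zero (α := ℝ)) (by simp only [two_smul ℝ (m.ρ a x _), e2]; module)
    simp only [map_sum, map_smul, e3] at this
    simp only [h.H.ρsk a x _, neg_smul, sum_neg_distrib, this]
    module
  simp only [e, ← sum_smul, ← sum_mul, h.hB.rk]

theorem span1 (h1 : hf m x ξ v = v) (e1 : ∀ a, ⟪m.ρ a x Φ, v⟫_ℝ = 0)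
    (e2 : ∀ a b, ⟪m.ρ a x (m.ρ b x Φ), v⟫_ℝ = 0) : v = 0 := by
  have n0 : ⟪Φ, Φ⟫_ℝ ≠ 0 := inner_self_ne_zero.2 h.ne
  have a1 := h.par1 (w := m.pm B x v) (by rw [h.hf_pm, h1]) (ap (pm_pm h.hB h.H x) v)
  have a2 := h.par2 (v := m.pp B x v) (by rw [h.hf_pp, h1]) (ap (pp_pp h.hB h.H x) v)
  have b1 : ∀ a, m.pm B x (m.ρ a x Φ) = m.ρ a x Φ := fun a =>
    (ap (pm_rho h.hB h.H a x) _).trans (congrArg _ h.pos)
  have b2 : ∀ a b, m.pp B x (m.ρ a x (m.ρ b x Φ)) = m.ρ a x (m.ρ b x Φ) := fun a b =>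
    (ap (pp_rho h.hB h.H a x) _).trans (congrArg _ (b1 b))
  simp only [← pm_sym h.hB h.H x _, b1, e1, zero_smul, sum_const_zero] at a1
  simp only [← pp_sym h.hB h.H x _, b2, e2, zero_smul, sum_const_zero] at a2
  have c1 := (smul_eq_zero.1 a1.symm).resolve_left n0
  have c2 := (smul_eq_zero.1 a2.symm).resolve_left (mul_ne_zero four_ne_zero n0)
  rw [← h1, ← h.p_hf, h1, ← pp_add_pm (B := B), add_apply, c1, c2, add_zero]

theorem zero_of_j (hv : m.p x v = v) (e : ∀ s, m.j x s v = 0) : v = 0 := by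
  obtain ⟨s, hs⟩ := exists_lf h.hB x
  have := ap (h.H.jsq x s) v
  rw [mul_apply_eq_comp, e, map_zero, hs.ls, hs.n1, one_pow, one_smul, hv] at this
  exact this.symm

theorem span2 (h1 : hg m x ξ v = v) (e1 : ∀ s a, ⟪m.j x s (m.ρ a x Φ), v⟫_ℝ = 0)
    (e2 : ∀ s a b, ⟪m.j x s (m.ρ a x (m.ρ b x Φ)), v⟫_ℝ = 0) : v = 0 :=
  h.zero_of_j (by rw [← h1, h.p_hg]) fun s => h.span1 (by rw [h.hf_j, h1])
    (fun a => by rw [← h.H.jsym, e1]) fun a b => by rw [← h.H.jsym, e2]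

/-- the normal part of an isotropic direction is a gauge direction -/
theorem gauge (h2 : m.pp B x v = v) (e : ∀ s, ⟪m.j x s v, Φ⟫_ℝ = 0) :
    ∃ η ∈ m.gS x, opL η Φ = hg m x ξ v := by
  have e' : ∀ s, ⟪m.j x s (hg m x ξ v), Φ⟫_ℝ = 0 := fun s => by
    rw [← h.hf_j, h.hf_s, h.hfΦ, e]
  have h3 : m.pp B x (hg m x ξ v) = hg m x ξ v := by rw [← h.hg_pp, h2]
  obtain ⟨U, s₀, u, F, c, a, hc, cc, -, rfl, ha, -, k2⟩ := h.frame
  obtain ⟨y, z, hy⟩ := k2 _ (h.hg_hg v)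
  rw [hy] at e' h3 ⊢
  rw [F.pp_u, u.map_eq_iff] at h3
  obtain rfl : 0 = z := congrArg (fun y : S4 => y 1) h3
  have sc : star c = -c := by ext <;> simp [hc]
  have a1 := e' s₀
  have a2 := e' (B.il s₀)
  have o1 : ⟪B.il s₀, s₀⟫_ℝ = 0 := by linarith [h.hB.ilsk s₀ s₀, real_inner_comm s₀ (B.il s₀)]
  rw [F.j_u, u.inner_map_map] at a1 a2
  rw [o1, real_inner_self_eq_norm_sq, F.lf.n1] at a1
  rw [real_inner_comm, real_inner_comm (B.il s₀) s₀, o1, real_inner_self_eq_norm_sq,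
    F.lf.n2] at a2
  simp only [one_pow, one_smul, zero_smul, add_zero, zero_add, Std94.inner4, Std94.k0_apply,
    Std94.J0_apply, mk4_0, mk4_1, mk4_2, mk4_3, neg_neg, inner_c hc cc, inner_zero_right,
    inner_zero_left, inner_neg_right] at a1 a2
  have n0 : normSq a ≠ 0 := by simpa using ha
  obtain ⟨d, rfl⟩ : ∃ d, y = a * star d := ⟨star (a⁻¹ * y), by simp [ha]⟩
  have k : ∀ s t : ℍ, ⟪a * s, a * t⟫_ℝ = normSq a * ⟪s, t⟫_ℝ := fun s t => by
    rw [Std94.inner_left_mul, ← mul_assoc, star_mul_self, coe_mul_eq_smul, real_inner_smul_right]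
  have d1 : d.re = 0 := by
    have := k (star d) 1
    rw [mul_one] at this
    have h4 : normSq a * ⟪star d, 1⟫_ℝ = 0 := by linarith
    simpa [Std94.inner_q, n0] using h4
  have d2 : ⟪c, star d⟫_ℝ = 0 := by
    have b1 := k c (star d)
    have b2 : ⟪a, a * star d * c⟫_ℝ = -⟪a * c, a * star d⟫_ℝ := by
      rw [← Std94.inner_mul_star, sc, mul_neg, inner_neg_left]
    have h4 : normSq a * ⟪c, star d⟫_ℝ = 0 := by linarith
    exact (mul_eq_zero.1 h4).resolve_left n0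
  refine ⟨_, F.Xi_mem d1, ?_⟩
  rw [opL_hsL, Std94.Xi_u, u.map_eq_iff]
  refine ext4 rfl (by simp [Std94.Rm_apply]) ?_ (by simp [Std94.Rm_apply])
  show a * c * star d = -(a * star d * c)
  rw [mul_assoc, mul_assoc, ← mul_neg]
  congr 1
  simp only [Std94.inner_q] at d2
  ext <;> simp [hc, d1] at d2 ⊢ <;> linarith

end SP

end Crest.Agent.X212.Top68
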