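import Crest.Agent.X212.Top68.Pw
import Crest.Agent.X212.Eq82.Defs
import Crest.Agent.X212.Map77.Qm

/-! Kuranishi at the Taubes point: the statement `Top` and the leaves `Sep1`, `Sep2`, `Tan`, `Nd`. -/

set_option autoImplicit false
set_option linter.unusedSectionVars false
noncomputable section
open scoped Manifold ContDiff Topology InnerProductSpace
open MeasureTheory Set Function Filter

namespace Crest.Agent.X212.Top68
open An Abel74 Map77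
open Eq82 (var vD vC Rig SLim fz wz Ed)

variable {E : Type} [NormedAddCommGroup E] [NormedSpace ℝ E] [FiniteDimensional ℝ E]
  [MeasurableSpace E] [BorelSpace E]
  {HM : Type} [TopologicalSpace HM] {I : ModelWithCorners ℝ E HM} [I.Boundaryless]
  {M : Type} [TopologicalSpace M] [ChartedSpace HM M] [IsManifold I ∞ M]
  [MeasurableSpace M] [T2Space M] [BorelSpace M] [SecondCountableTopology M]
  {ι : Type} [Fintype ι] {lam : Type} [Fintype lam] {r n : ℕ}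

/-- a point of type S whose spinor vanishes nowhere -/
structure TP (B : Base M ι lam) (G : Geo I M ι lam) (c : Cfg M ι lam 0) (ξ : M → c.m.A) :
    Prop where
  hB : B.OK I
  hG : G.OK B
  tame : ∃ C, G.F.Tame C
  ad : c.Adm B G
  sp : SPt G.F c ξ
  ne : ∀ x, c.Φ x ≠ 0

theorem TP.pt {B : Base M ι lam} {G : Geo I M ι lam} {c : Cfg M ι lam 0} {ξ : M → c.m.A}
    (h : TP B G c ξ) (x : M) : SP I B c.m x (ξ x) (c.Φ x) :=
  ⟨h.hB, h.ad.ok, h.sp.mem x, h.sp.sq x, h.ad.pos x, h.sp.Φ x, h.ne x⟩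

/-- the bundles of a module -/
abbrev bdm (B : Base M ι lam) (m : Md M ι lam) : Bd M ι (Fin m.N) :=
  ⟨B.P, B.o, m.ρ, m.pg, m.p1 B, m.p2 B, m.pp B, m.pm B⟩

/-- the bundles of the abelian theory of a reduction -/
abbrev bdt (B : Base M ι lam) (m : Md M ι lam) (ξ : M → m.A) : Bd M ι (Fin m.N) :=
  ⟨B.P, B.o, m.ρ, fun x => gt (ξ x), fun x => idx (fun a b => B.P a b x) (gt (ξ x)),
    fun x => idx (B.sd x) (gt (ξ x)), fun x => hf m x (ξ x) * m.pp B x,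
    fun x => hf m x (ξ x) * m.pm B x⟩

/-- the index of the gauge fixed linearisation -/
def Ix {κ : Type} [Fintype κ] [DecidableEq κ] (d : Bd M ι κ) (F : Fr I M ι) (u : M → Cf ι κ)
    (i : ℤ) : Prop := ∀ k, Fred93.Fr ((d.full F u).H F k) i

/-- the one-form `a ⊗ ξ` -/
abbrev tf {m : Md M ι lam} (a : ι → M → ℝ) (ξ : M → m.A) (x : M) : Fm ι m.A :=
  WithLp.toLp 2 fun b => a b x • ξ x

/-- LEAF (88): rigidity in the abelian directions -/
def TRig (B : Base M ι lam) (G : Geo I M ι lam) (τ : Pt M ι lam 0 0) (c : Cfg M ι lam 0)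
    (ξ : M → c.m.A) : Prop :=
  ∀ (a : ι → M → ℝ) (φ : M → c.m.V), (∀ b, Sm I (a b)) →
    (∀ b x, ∑ k, B.P b k x * a k x = a b x) → Sm I φ → (∀ x, c.m.pp B x (φ x) = φ x) →
    (∀ x, opL (ξ x) (φ x) = c.m.J (φ x)) → (∀ x, HasDerivAt (vD G τ c (tf a ξ) φ 0 x) 0 0) →
    (∀ x s, HasDerivAt (vC B G τ c (tf a ξ) φ 0 x s) 0 0) →
    ∃ g : M → ℝ, Sm I g ∧ (∀ b x, a b x = -G.F.D b g x) ∧ ∀ x, φ x = g x • c.m.J (c.Φ x)

/-- a direction along which all weight two scalars are stationary -/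
structure Stat (B : Base M ι lam) (G : Geo I M ι lam) (c : Cfg M ι lam 0) (α : M → Fm ι c.m.A)
    (φ : M → c.m.V) : Prop where
  sα : Sm I α
  pα : ∀ x, c.m.p1 B x (α x) = α x
  sφ : Sm I φ
  pφ : ∀ x, c.m.pp B x (φ x) = φ x
  st : ∀ g : Sg M lam, g.OK G.F → HasDerivAt (fun s => (var c α φ 0 s).sg G.F g) 0 0

/-- LEAF: the normal part of the spinor is a gauge direction -/
def Sep1 (B : Base M ι lam) (G : Geo I M ι lam) (c : Cfg M ι lam 0) (ξ : M → c.m.A) : Prop :=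
  ∀ α φ, Stat B G c α φ → ∃ η : M → c.m.A, Sm I η ∧ (∀ x, η x ∈ c.m.gS x) ∧
    ∀ x, opL (η x) (c.Φ x) = hg c.m x (ξ x) (φ x)

/-- LEAF: the form is abelian if the spinor is -/
def Sep2 (B : Base M ι lam) (G : Geo I M ι lam) (c : Cfg M ι lam 0) (ξ : M → c.m.A) : Prop :=
  ∀ α φ, Stat B G c α φ → (∀ x, hf c.m x (ξ x) (φ x) = φ x) → ∀ x a, gt (ξ x) (α x a) = α x a

/-- LEAF: the abelian theory has index zero -/
def Tan (B : Base M ι lam) (G : Geo I M ι lam) (c : Cfg M ι lam 0) (ξ : M → c.m.A) : Prop :=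
  (bdt B c.m ξ).Hy G.F G.F ∧ Ix (bdt B c.m ξ) G.F (base c.W c.Φ) 0

variable (M lam) in
/-- terms linear in one coordinate of `z` -/
inductive LT
  | a (s : M → Eu lam) (u : SW M)
  | b (s : M → Eu lam) (g h : M → ℝ) (u v : SW M)

namespace LT
variable (w : LT M lam)

/-- the term with the coefficient `z i` -/
def tm (n : ℕ) (i : Fin r) : Tm M lam r n :=
  match w with
  | a s u => .anti (.z i) s u
  | b s g h u v => .adj (.z i) s g h u v []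

def OK (F : Fr I M ι) : Prop := (w.tm 0 (0 : Fin 1)).OK F

/-- the value for the coefficient `z` -/
def val (B : Base M ι lam) (F : Fr I M ι) (c : Cfg M ι lam r) (z : ℂ) (x : M) :
    Ef ι (Fin c.m.N) :=
  match w with
  | a s u => i1 _ _ (c.m.pm B x (cs c.m.J z (c.m.j x (s x) (c.sw F u x))))
  | b s g h u v => i2 _ _ (c.m.p2 B x (WithLp.toLp 2 fun t => (F.D t.1 g x * F.D t.2 h x) •
      c.m.q x (cs c.m.J z (c.m.j x (s x) (c.sw F u x))) (c.sw F v x)))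

end LT

/-- LEAF: the terms span the normal sections -/
def Nd (B : Base M ι lam) (G : Geo I M ι lam) (c : Cfg M ι lam 0) (ξ : M → c.m.A) : Prop :=
  ∀ y : M → Ef ι (Fin c.m.N), Sm I y → (∀ x, (bdm B c.m).pE x (y x) = y x) →
    (∀ x, hf c.m x (ξ x) (f2 _ _ (y x)) = 0) → (∀ x t, ⟪ξ x, s2 _ _ (y x) t⟫_ℝ = 0) →
    y ∈ Submodule.span ℝ {v | ∃ w : LT M lam, w.OK G.F ∧ w.val B G.F c 1 = v}

/-- the cuts `e z''ᵢ = sg gᵢ` -/
def cuts (B : Base M ι lam) (F : Fr I M ι) (j : ℕ) {J : ℕ} (g : Fin J → Sg M lam) (e : ℝ) :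
    Pt M ι lam (j + 1 + J) J :=
  (wpt B F (fun i => .cz i 1 (Fin.natAdd (j + 1) i)) fun _ => e).add
    (wpt B F (fun i => .cut i 1 (g i)) fun _ => -1)

/-- the perturbation of the link -/
def lk (B : Base M ι lam) (F : Fr I M ι) {j J K : ℕ} (τ : Pt M ι lam (j + 1 + J) J)
    (T : Fin K → Tm M lam (j + 1 + J) J) (v : Fin K → ℝ) (g : Fin J → Sg M lam) (e : ℝ) :
    Pt M ι lam (j + 1 + J) J := (τ.add (wpt B F T (e • v))).add (cuts B F j g e)

/-- **The statement.** `τ r n` is the perturbation of the point `c₀`. -/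
def Top (B : Base M ι lam) (G : Geo I M ι lam) (τ : ∀ r n, Pt M ι lam r n) (c₀ : Cfg M ι lam 0)
    (j : ℕ) : Prop :=
  ∃ L₀ : List (Sg M lam), (∀ s ∈ L₀, s.OK G.F) ∧
    (∀ (α : Type) (l : Filter α) (c : α → Cfg M ι lam 0),
      (∀ᶠ i in l, (c i).Sol B G (τ 0 0) ∧ ∀ s ∈ L₀, (c i).sg G.F s = 0) →
      SLim B l (fun _ => G) c c₀ → ∀ᶠ i in l, Cfg.Iso B G.F (c i) c₀) ∧
    ∀ (J : ℕ) (g : Fin J → Sg M lam), (∀ i, (g i).OK G.F) → (∀ s ∈ L₀, s ∈ range g) →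
      ∃ (K : ℕ) (T : Fin K → Tm M lam (j + 1 + J) J) (v : Fin K → ℝ) (W : ℝ → c₀.m.Cn)
        (Φ : ℝ → M → c₀.m.V) (z : ℝ → EuclideanSpace ℂ (Fin (j + 1 + J))),
        (∀ k, ∃ (w : LT M lam) (i : Fin (j + 1 + J)), w.OK G.F ∧ T k = w.tm J i) ∧
        (∀ᶠ e in 𝓝[>] 0, Cfg.Sol ⟨c₀.m, W e, Φ e, z e⟩ B G (lk B G.F (τ _ _) T v g e) ∧
          Rig B G (lk B G.F (τ _ _) T v g e) ⟨c₀.m, W e, Φ e, z e⟩) ∧
        (∀ a, Cmp73.Cv I (𝓝[>] 0) univ (fun e => W e a) (c₀.W a)) ∧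
        Cmp73.Cv I (𝓝[>] 0) univ Φ c₀.Φ ∧
        ∀ (α : Type) (l : Filter α) (e : α → ℝ) (c : α → Cfg M ι lam (j + 1 + J)),
          Tendsto e l (𝓝[>] 0) → (∀ᶠ i in l, (c i).Sol B G (lk B G.F (τ _ _) T v g (e i))) →
          SLim B l (fun _ => G) (fun i => fz (c i)) c₀ →
          ∀ᶠ i in l, Cfg.Iso B G.F (c i) ⟨c₀.m, W (e i), Φ (e i), z (e i)⟩

variable (I M ι lam) in
/-- **TOP** for the perturbations `Ed.pt` -/
def TopStmt : Prop :=
  ∀ (B : Base M ι lam) (G : Geo I M ι lam) (D : Ed M) (w : Fin D.N → ℝ) (c₀ : Cfg M ι lam 0)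
    (ξ : M → c₀.m.A) (j : ℕ), TP B G c₀ ξ → (∀ k, (D.tm lam 0 0 k).OK G.F) →
    c₀.Sol B G (D.pt B G.F w 0 0) → TRig B G (D.pt B G.F w 0 0) c₀ ξ →
    Ix (bdm B c₀.m) G.F (base c₀.W c₀.Φ) (-(2 * j)) → Top B G (D.pt B G.F w) c₀ j

end Crest.Agent.X212.Top68
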