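import Crest.Agent.X212.Top68.Lnk

/-! Kuranishi at the Taubes point: the main theorem. -/

set_option autoImplicit false
set_option linter.unusedSectionVars false
noncomputable section
open scoped Manifold ContDiff Topology InnerProductSpace
open MeasureTheory Set Function Filter

namespace Crest.Agent.X212.Top68
open An An.Pre Sob92 Abel74 Map77 Eqv71
open Eq82 (var vD vC Ed fz wz Rig SLim)
open Lad50.Tq (gnQ gaQ)
open Cmp73 (Cv)
open ContinuousLinearMap (fst snd inl inr proj)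

variable {E : Type} [NormedAddCommGroup E] [NormedSpace ℝ E] [FiniteDimensional ℝ E]
  [MeasurableSpace E] [BorelSpace E]
  {HM : Type} [TopologicalSpace HM] {I : ModelWithCorners ℝ E HM} [I.Boundaryless]
  {M : Type} [TopologicalSpace M] [ChartedSpace HM M] [IsManifold I ∞ M]
  [MeasurableSpace M] [T2Space M] [BorelSpace M] [SecondCountableTopology M]
  {ι : Type} [Fintype ι] {lam : Type} [Fintype lam] {r n k m j J K : ℕ}
  {B : Base M ι lam} {G : Geo I M ι lam} {c : Cfg M ι lam 0} {ξ : M → c.m.A}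

section lf
variable {X Y S P A : Type} [NormedAddCommGroup X] [NormedSpace ℝ X] [NormedAddCommGroup Y]
  [NormedSpace ℝ Y] [NormedAddCommGroup S] [NormedSpace ℝ S] [NormedAddCommGroup P]
  [NormedSpace ℝ P] [NormedAddCommGroup A] [NormedSpace ℝ A] {f : X × A → Y × S}
  (N : P →L[ℝ] A) (ρ : P →L[ℝ] S)

variable (f) in
/-- linear substitution of the parameters -/
def lf (y : X × P) : Y × S := f (y.1, N y.2) + (0, ρ y.2)

theorem lf_fst (x : X) (p : P) : (lf f N ρ (x, p)).1 = (f (x, N p)).1 := add_zero _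
theorem lf_snd (x : X) (p : P) : (lf f N ρ (x, p)).2 = (f (x, N p)).2 + ρ p := rfl
theorem lf_sm (hf : ContDiff ℝ ∞ f) : ContDiff ℝ ∞ (lf f N ρ) := by unfold lf; fun_prop
theorem lf_zero (h : f 0 = 0) : lf f N ρ 0 = 0 := by simp [lf, h, Prod.mk_zero_zero]

theorem lf_der (hf : ContDiff ℝ ∞ f) (y : X × P) :
    fderiv ℝ (lf f N ρ) 0 y = fderiv ℝ f 0 (y.1, N y.2) + (0, ρ y.2) := by
  let N' := (ContinuousLinearMap.id ℝ X).prodMap N
  have := ((hf.differentiable (by simp) (N' 0)).hasFDerivAt.comp 0 N'.hasFDerivAt).add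
    (inr ℝ Y S ∘L ρ ∘L snd ℝ X P).hasFDerivAt
  rw [map_zero] at this
  exact DFunLike.congr_fun this.fderiv y

end lf

variable [CompactSpace M] {τ : ∀ r n, Pt M ι lam r n} (h : TH B G τ c ξ (-(2 * j)))
  {g : Fin J → Sg M lam} (hg : ∀ a, (g a).OK G.F) {w : Fin K → LT M lam}
  (i : Fin K → Fin (j + 1 + J)) (v : Fin K → ℝ) (e : ℝ)
include h

theorem TH.ev_sc (m : Md M ι lam) (W : m.Cn) (Φ : M → m.V) (z : Pz (j + 1 + J)) :
    Top68.ev B G (lk B G.F (τ _ _) (fun k => (w k).tm J (i k)) v g e) ⟨m, W, Φ, z⟩ =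
      Top68.ev B G (lk B G.F (τ _ _) (fun k => (w k).tm J (i k)) v g 1) ⟨m, W, Φ, e • z⟩ := by
  funext x
  rw [ev_lk, ev_lk, h.ev _ _ _ J _ _ _ z (e • z), one_smul]
  simp only [val_z _ _ z (e • z)]

theorem TH.S_sc (m : Md M ι lam) (W : m.Cn) (Φ : M → m.V) (z : Pz (j + 1 + J)) :
    (lk B G.F (τ _ _) (fun k => (w k).tm J (i k)) v g e).S ⟨m, W, Φ, z⟩ =
      (lk B G.F (τ _ _) (fun k => (w k).tm J (i k)) v g 1).S ⟨m, W, Φ, e • z⟩ := by
  funext a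
  rw [lk_S, lk_S, h.S, h.S, one_smul, sg_z _ _ z (e • z)]

include hg in
theorem TH.wp_lk (hw : ∀ k, (w k).OK G.F) :
    Wp B G.F (lk B G.F (τ _ _) (fun k => (w k).tm J (i k)) v g e) :=
  .add (.add (h.wp _ _) (.wpt _ _ fun k => (hw k).tm _))
    (.add (.wpt _ _ fun _ => trivial) (.wpt _ _ hg))

include hg in
/-- **The link.** -/
theorem TH.link (hk : 7 ≤ k) (h2 : ∀ x : XB G c B k,
    (fderiv ℝ (mdl k B G c (τ 0 0)) 0 (x, 0)).1 = 0 → σB G c B k x = 0 →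
    (∀ a, lg k B G c (g a) x = 0) → x = 0) :
    ∃ (K : ℕ) (T : Fin K → Tm M lam (j + 1 + J) J) (v : Fin K → ℝ) (W : ℝ → c.m.Cn)
      (Φ : ℝ → M → c.m.V) (z : ℝ → EuclideanSpace ℂ (Fin (j + 1 + J))),
      (∀ k, ∃ (w : LT M lam) (i : Fin (j + 1 + J)), w.OK G.F ∧ T k = w.tm J i) ∧
      (∀ᶠ e in 𝓝[>] 0, Cfg.Sol ⟨c.m, W e, Φ e, z e⟩ B G (lk B G.F (τ _ _) T v g e) ∧
        Rig B G (lk B G.F (τ _ _) T v g e) ⟨c.m, W e, Φ e, z e⟩) ∧
      (∀ a, Cv I (𝓝[>] 0) univ (fun e => W e a) (c.W a)) ∧ Cv I (𝓝[>] 0) univ Φ c.Φ ∧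
      ∀ (α : Type) (l : Filter α) (e : α → ℝ) (c' : α → Cfg M ι lam (j + 1 + J)),
        Tendsto e l (𝓝[>] 0) → (∀ᶠ i in l, (c' i).Sol B G (lk B G.F (τ _ _) T v g (e i))) →
        SLim B l (fun _ => G) (fun i => fz (c' i)) c →
        ∀ᶠ i in l, Cfg.Iso B G.F (c' i) ⟨c.m, W (e i), Φ (e i), z (e i)⟩ := by
  obtain ⟨m, w, A, z0, hw, a1, a2⟩ := h.line hk hg h2
  obtain ⟨K, w', i, v, hw', e1⟩ := exists_tm (B := B) hw A
  obtain ⟨a, dd, ga⟩ := (gaQ h.toTP (j + 1 + J) k hk).ga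
  have hf := h.rt hk (gnQ h.toTP) (h.wp1 hw hg)
  have e0 := tH_zero (G := G) (k := k) (c := c) (B := B) (r := j + 1 + J)
  have wp := fun e => h.wp_lk hg i v e hw'
  have gn := gnQ h.toTP _ _ _ (wp 1)
  have F0 := lf_zero (A.restrictScalars ℝ) ((res j J).restrictScalars ℝ)
    ((tH_zero (G := G) (k := k) (c := c) (B := B) (r := m)) ▸ h.f_zero hg hk hf)
  obtain ⟨a3, a4, a5⟩ := a2 _ (lf_der (A.restrictScalars ℝ) ((res j J).restrictScalars ℝ) hf.sm)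
  have hF : Rt B G c _ (lk B G.F (τ _ _) (fun k => (w' k).tm J (i k)) v g 1)
      (lf (mdl k B G c (t1 B G.F (τ m J) w g)) (A.restrictScalars ℝ)
        ((res j J).restrictScalars ℝ)) := by
    refine ⟨lf_sm _ _ hf.sm, fun y p => ?_, fun y p => ?_⟩
    · rw [lf_fst, hf.e]
      funext x
      rw [h.ev1, ev_lk, h.ev _ _ 0 0 _ _ _ p 0, one_smul, e1 _ p x h.ad.ok]
      simp only [val_z _ _ p (0 : Pz 0)]
      rfl
    · rw [lf_snd, hf.s]
      funext b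
      rw [Pi.add_apply, h.t1_S, lk_S, h.S, zero_add, one_smul, sg_z _ _ _ p, neg_add_eq_sub]
      rfl
  generalize lf (mdl k B G c (t1 B G.F (τ m J) w g)) (A.restrictScalars ℝ)
    ((res j J).restrictScalars ℝ) = F at F0 a3 a4 a5 hF
  have hb : Bijective ((σB G c B k).comp (dd 0)) := by rw [← e0, ga.val]; exact h.bij
  obtain ⟨q, t1, p1, u1⟩ := top2 (hF.sm.contDiffAt.hasStrictFDerivAt (by simp)) F0 (ga.der 0)
    (ga.zero 0) ga.snd hb (ρ := fun u => rH _ k B G ξ u) h.rH_nhds (fun _ _ => rfl) a1 a3 a4 a5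
  obtain ⟨y, hy⟩ := (p1.mono fun ε b => gn.reg h.hy h.cb hk hF (congrArg Prod.fst b.2.1)
    b.2.2.1).choice
  have hy' : ∀ᶠ ε in 𝓝[>] 0, q ε = (tH G k (y ε), (q ε).2) := hy.mono fun ε e => Prod.ext e.symm rfl
  have cy := gn.cv h.hy h.cb hk hF (congrArg Prod.fst F0) (v := y)
    (t1.fst_nhds.congr' (hy.mono fun _ e => e.symm)) t1.snd_nhds (by
      filter_upwards [p1, hy', hy] with ε b b1 b2
      exact ⟨congrArg Prod.fst ((congrArg F b1).symm.trans b.2.1), b2 ▸ b.2.2.1⟩)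
  have bj := t1.eventually (((continuous_const.clm_comp ga.cont).tendsto 0).eventually (ev_bij hb))
  refine ⟨K, fun k => (w' k).tm J (i k), v, fun e => (cv c (y e).1 (0 : Pz 0)).W,
    fun e => (cv c (y e).1 (0 : Pz 0)).Φ, fun e => e⁻¹ • (q e).2, fun k => ⟨w' k, i k, hw' k, rfl⟩,
    ?_, fun b => ?_, ?_, fun α l e c' he s hs => ?_⟩
  · filter_upwards [p1, hy', bj, self_mem_nhdsWithin] with e ⟨b1, b2, _, b4, b5⟩ b6 b7 (he : 0 < e)
    have e2 : e • e⁻¹ • (q e).2 = (q e).2 := smul_inv_smul₀ he.ne' _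
    rw [b6] at b2 b5 b7
    rw [ga.val] at b7
    have z1 := (zr_scal (h.ev_sc i v e c.m) (h.S_sc i v e c.m) (z := e⁻¹ • (q e).2)).2
      (by rw [e2]; exact (h.zero_iff hF hk _ _).1 b2)
    have a0 := h.a0 (y e) (0 : Pz 0)
    refine ⟨⟨⟨a0.ok, a0.conn, a0.sm, a0.pos, .inr ?_⟩, z1.D, z1.C, z1.S⟩,
      rig_scal (h.ev_sc i v e c.m) (h.S_sc i v e c.m) he.ne' ?_⟩
    · change ‖e⁻¹ • (q e).2‖ = 1
      rw [norm_smul, b1, norm_inv, Real.norm_of_nonneg he.le, inv_mul_cancel₀ he.ne']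
    · rw [e2]
      exact h.rig hk hF ga (wp 1) b2 b7 b4 (b5 _ (hF.sm.differentiable (by simp) _).hasFDerivAt)
  · exact ((Cv.fixed' (h.ad.conn.cc.sm b)).add (cy.clm (oa b))).congr' isOpen_univ
      (.of_forall fun _ _ _ => rfl) fun x _ => by simp
  · exact ((Cv.fixed' h.ad.sm).add (cy.clm fp)).congr' isOpen_univ
      (.of_forall fun _ _ _ => rfl) fun x _ => by simp
  obtain ⟨y', z', b1, b2⟩ := h.slim (k := k) (s.mono fun a s => ad0 s.toAdm) hs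
  have b3 : ∀ᶠ b in l, 0 < e b ∧ ‖e b • z' b‖ = e b := by
    filter_upwards [s, b2, he self_mem_nhdsWithin] with b s b2 (he : 0 < e b)
    rw [norm_smul, b2.1, s.z.resolve_left (by omega), mul_one, Real.norm_of_nonneg he.le]
    exact ⟨he, rfl⟩
  have b4 : Tendsto (fun b => e b • z' b) l (𝓝 0) := tendsto_zero_iff_norm_tendsto_zero.2
    ((he.mono_right nhdsWithin_le_nhds).congr' (b3.mono fun _ b => b.2.symm))
  filter_upwards [s, b2, b3, (b1.prodMk_nhds b4).eventually u1, he.eventually hy']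
    with b s ⟨_, u, ζ, c1⟩ ⟨c2, c3⟩ c4 c5
  obtain ⟨u', η, c4⟩ := c4 (norm_pos_iff.1 (c2.trans_eq c3.symm))
  obtain ⟨y'', c6⟩ := h.rH_toH (k := k) (r := j + 1 + J) u' (y' b)
  have z1 := (zr_scal (h.ev_sc i v (e b) c.m) (h.S_sc i v (e b) c.m)).1
    (h.zr (wp _) (ad0 s.toAdm) (h.a0 _ _) c1 ⟨s.D, s.C, s.S⟩)
  have z2 := (h.zero_iff hF hk _ _).2 (h.zr (wp 1) (h.a0 _ _) (h.a0 _ _) (c6 (e b • z' b)).2 z1)
  simp only [(c6 _).1, c3] at c4
  have c7 := (c4 (h.act_zero hF hk ga (wp 1) z2 η)).trans c5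
  obtain ⟨u'', c8⟩ := ga.eqv η _ _ _ (congrArg Prod.fst c7)
  have c9 : (e b)⁻¹ • (q (e b)).2 = ((u' : ℂ) ^ 2) • z' b := by
    rw [← (ga.snd _).symm.trans (congrArg Prod.snd c7), smul_comm _ (e b), inv_smul_smul₀ c2.ne']
  rw [c9]
  exact IsoOn.trans h.hB h.hG isOpen_univ (ad0 s.toAdm) (h.a0 _ _) (h.a0 (y (e b)) _) ⟨_, _, c1⟩
    (IsoOn.trans h.hB h.hG isOpen_univ (h.a0 _ _) (h.a0 _ _) (h.a0 _ _) ⟨_, _, (c6 (z' b)).2⟩
      ⟨u'', 1, c8.m, c8.W, c8.Φ, by simp⟩)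

omit h in
/-- **TOP** -/
theorem topStmt : TopStmt I M ι lam := by
  intro B G D w c ξ j tp ok s tr ix
  have h : TH B G (D.pt B G.F w) c ξ (-(2 * j)) := ⟨tp, fun r n => .wpt _ _ ok,
    fun _ _ _ _ _ W Φ z z' => ev_pt W Φ z z' D w, fun _ _ => pt_S D w, s, tr, ix⟩
  obtain ⟨L, h1, h2⟩ := h.fin (k := 7) le_rfl
  refine ⟨L, h1, fun α l c' => h.iso le_rfl h1 h2, fun J g hg hL => h.link hg le_rfl
    fun x a1 a2 a3 => h2 x a1 a2 fun s hs => ?_⟩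
  obtain ⟨a, rfl⟩ := hL s hs
  exact a3 a

end Crest.Agent.X212.Top68
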