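import Crest.Agent.X212.Top68.Kur
import Crest.Agent.X212.Fred93.Cpt

/-! Kuranishi at a reducible point, format free: the forms used by the model. -/

set_option autoImplicit false
set_option linter.unusedSectionVars false

noncomputable section

open Set Function Filter Topology Module
open scoped InnerProductSpace

namespace Crest.Agent.X212.Top68
open Fred93 (Fr)

variable {X Y H L P S A C : Type*} [NormedAddCommGroup X] [NormedSpace ℝ X] [CompleteSpace X]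
  [NormedAddCommGroup Y] [NormedSpace ℝ Y] [CompleteSpace Y]
  [NormedAddCommGroup H] [NormedSpace ℝ H] [CompleteSpace H]
  [NormedAddCommGroup L] [NormedSpace ℝ L] [CompleteSpace L]
  [NormedAddCommGroup C] [NormedSpace ℝ C] [CompleteSpace C]
  [NormedAddCommGroup P] [InnerProductSpace ℂ P] [FiniteDimensional ℂ P]
  [NormedAddCommGroup S] [NormedSpace ℂ S] [FiniteDimensional ℂ S]
  [NormedAddCommGroup A] [NormedSpace ℂ A] [FiniteDimensional ℂ A]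

theorem ev_bij {T : X →L[ℝ] Y} (h : Bijective T) :
    ∀ᶠ T' : X →L[ℝ] Y in 𝓝 T, Bijective T' := by
  have := (ContinuousLinearEquiv.ofBijective T (LinearMap.ker_eq_bot.2 h.1)
    (LinearMap.range_eq_top.2 h.2)).nhds
  rw [ContinuousLinearEquiv.coe_ofBijective] at this
  filter_upwards [this] with T' ⟨e, he⟩
  exact he ▸ e.bijective

/-- an isolated orbit -/
theorem iso2 {F : C → Y} {T : C →L[ℝ] Y} (hF : HasFDerivAt F T 0) (h0 : F 0 = 0)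
    {a : L × C → C} {d : L →L[ℝ] C} {σ : C →L[ℝ] H}
    (ha : HasStrictFDerivAt a (d.coprod (ContinuousLinearMap.id ℝ C)) (0, 0)) (ha0 : a (0, 0) = 0)
    (hb : Bijective (σ.comp d)) (hT : (T.prod σ).IsFredholm) (hk : ∀ v, T v = 0 → σ v = 0 → v = 0) :
    ∀ᶠ v in 𝓝 (0 : C), ∃ ξ, F (a (ξ, v)) = 0 → a (ξ, v) = 0 := by
  obtain ⟨K, hK⟩ := (T.prod σ).antilipschitz_of_injective_of_isClosed_range
    ((injective_iff_map_eq_zero _).2 fun v h => hk v (congrArg Prod.fst h) (congrArg Prod.snd h))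
    hT.isClosed_range
  obtain ⟨δ, hδ, h⟩ := Kur.no_zero (hF.prodMk σ.hasFDerivAt) (by simp [h0])
    (ZeroHomClass.bound_of_antilipschitz _ hK)
  filter_upwards [gauge_fix ha ha0 hb (Metric.ball_mem_nhds 0 hδ)] with v ⟨ξ, h1, h2⟩
  exact ⟨ξ, fun h3 => h _ (by simpa using h1) (Prod.ext h3 (by simpa using h2))⟩

/-- **One regular orbit on the link.** -/
theorem top2 {F : X × P → Y} {T : X × P →L[ℝ] Y} (hF : HasStrictFDerivAt F T 0) (h0 : F 0 = 0)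
    {a : L × X × P → X × P} {d : L →L[ℝ] X} {σ : X →L[ℝ] H}
    (ha : HasStrictFDerivAt a (((ContinuousLinearMap.inl ℝ X P).comp d).coprod
      (ContinuousLinearMap.id ℝ _)) (0, 0))
    (ha0 : a (0, 0) = 0) (ha2 : ∀ q, (a q).2 = q.2.2) (hb : Bijective (σ.comp d))
    {ρ : Circle → X × P → X × P} (hρ : ∀ N ∈ 𝓝 (0 : X × P), ∀ᶠ w in 𝓝 0, ∀ u, ρ u w ∈ N)
    (hρ2 : ∀ u w, (ρ u w).2 = ((u : ℂ) ^ 2) • w.2)
    {z0 : P} (hz : ‖z0‖ = 1) (hs : Surjective fun w : X × P => (T w, σ w.1))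
    (hk : ∀ w, T w = 0 → σ w.1 = 0 → ⟪z0, w.2⟫_ℂ = 0 → w = 0)
    (hl : ∀ c : ℂ, ∃ y, T (y, c • z0) = 0 ∧ σ y = 0) :
    ∃ w : ℝ → X × P, Tendsto w (𝓝[>] 0) (𝓝 0) ∧
      (∀ᶠ ε in 𝓝[>] (0 : ℝ), ‖(w ε).2‖ = ε ∧ F (w ε) = 0 ∧ σ (w ε).1 = 0 ∧
        0 < (⟪z0, (w ε).2⟫_ℂ).re ∧ ∀ D : X × P →L[ℝ] Y, HasFDerivAt F D (w ε) → ∀ v, D v = 0 →
          σ v.1 = 0 → (⟪(w ε).2, v.2⟫_ℂ).re = 0 → (⟪z0, v.2⟫_ℂ).im = 0 → v = 0) ∧
      ∀ᶠ v in 𝓝 (0 : X × P), v.2 ≠ 0 →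
        ∃ u ξ, F (a (ξ, ρ u v)) = 0 → a (ξ, ρ u v) = w ‖v.2‖ := by
  have : CompleteSpace P := FiniteDimensional.complete ℂ P
  let σ' : X × P →L[ℝ] H := σ.comp (ContinuousLinearMap.fst ℝ X P)
  obtain ⟨K, δ, ε0, hδ, hε0, h⟩ := Kur.kur (hF.prodMk σ'.hasStrictFDerivAt) (by simp [h0]) hz hs
    (fun w h1 h2 => hk w (congrArg Prod.fst h1) (congrArg Prod.snd h1) h2)
    (fun c => (hl c).imp fun y h => Prod.ext h.1 h.2)
  choose! w hw using h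
  have e0 : ∀ᶠ ε in 𝓝[>] (0 : ℝ), 0 < ε ∧ ε < ε0 := Ioo_mem_nhdsGT hε0
  refine ⟨w, ?_, e0.mono fun ε he => ?_, ?_⟩
  · refine squeeze_zero_norm' (a := fun ε => max (K * ε) ε) (e0.mono fun ε he => ?_) ?_
    · obtain ⟨a1, -, a3, -⟩ := hw ε he.1 he.2
      exact max_le_max a1 a3.le
    · exact (Continuous.tendsto' (by fun_prop) 0 0 (by simp)).mono_left nhdsWithin_le_nhds
  · obtain ⟨-, -, a3, a4, -, a6, -, a8⟩ := hw ε he.1 he.2
    refine ⟨a3, congrArg Prod.fst a4, congrArg Prod.snd a4, a6, fun D hD v b1 b2 b3 b4 => ?_⟩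
    exact (a8 _ (hD.prodMk σ'.hasFDerivAt)).1 (by simp [b1, b2, b3, b4, σ'])
  · have g1 := hρ _ (gauge_fix (σ := σ') ha ha0 hb (Metric.ball_mem_nhds 0 hδ))
    have g2 : ∀ᶠ v in 𝓝 (0 : X × P), ‖v.2‖ < ε0 :=
      (continuous_snd.norm.tendsto' 0 0 (by simp)).eventually (gt_mem_nhds hε0)
    filter_upwards [g1, g2] with v h1 h2 h3
    obtain ⟨u', b1, b2⟩ := exists_phase ⟪z0, v.2⟫_ℂ
    obtain ⟨t, rfl⟩ := Circle.exp_surjective u'
    have b3 : ((Circle.exp (t / 2) : Circle) : ℂ) ^ 2 = Circle.exp t := by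
      rw [← Circle.coe_pow, sq, ← Circle.exp_add, add_halves]
    obtain ⟨ξ, c1, c2⟩ := h1 (Circle.exp (t / 2))
    have c3 : (a (ξ, ρ (Circle.exp (t / 2)) v)).2 = (Circle.exp t : ℂ) • v.2 := by
      rw [ha2, hρ2, b3]
    refine ⟨_, ξ, fun c4 => (hw _ (norm_pos_iff.2 h3) h2).2.2.2.2.2.2.1 _
      ((norm_fst_le _).trans_lt (by simpa using c1)) (by rw [c3, norm_smul]; simp)
      (Prod.ext c4 (by simpa using c2)) ?_ ?_⟩ <;> rwa [c3, inner_smul_right]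

/-- the linear statement modulo gauge -/
theorem line2 {D : X →L[ℝ] Y} {σ : X →L[ℝ] H} {d : L →L[ℝ] X} {ds : X →L[ℝ] S} {Θ : A →L[ℝ] Y}
    {res : P →L[ℂ] S} {j : ℕ} (hD : Fr (D.prod σ) (-(2 * j))) (hb : Bijective (σ.comp d))
    (h1 : ∀ η, D (d η) = 0) (h2 : ∀ η, ds (d η) = 0) (hres : Surjective res)
    (hP : finrank ℂ P = j + 1 + finrank ℂ S) (hk : ∀ x, D x = 0 → σ x = 0 → ds x = 0 → x = 0)
    (hc : ∀ y, ∃ x a, D x + Θ a = y)
    (hR : ∀ x a, D x + Θ a = 0 →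
      ∃ x', D x' + Θ (Complex.I • a) = 0 ∧ ds x' = Complex.I • ds x) :
    ∃ (M : P →L[ℂ] A) (z0 : P), ‖z0‖ = 1 ∧ ∀ T : X × P →L[ℝ] Y × S,
      (∀ w, T w = (D w.1 + Θ (M w.2), res w.2 - ds w.1)) →
      (Surjective fun w : X × P => (T w, σ w.1)) ∧
      (∀ w, T w = 0 → σ w.1 = 0 → ⟪z0, w.2⟫_ℂ = 0 → w = 0) ∧
      ∀ c : ℂ, ∃ y, T (y, c • z0) = 0 ∧ σ y = 0 := by
  have fix : ∀ x h, ∃ x', D x' = D x ∧ ds x' = ds x ∧ σ x' = h := fun x h => by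
    obtain ⟨η, hη⟩ := hb.2 (h - σ x)
    exact ⟨x + d η, by simp [h1], by simp [h2], by rw [map_add, show σ (d η) = _ from hη]; simp⟩
  obtain ⟨M, z0, a1, a2, a3, a4⟩ := exists_line (Θ := (ContinuousLinearMap.inl ℝ Y H).comp Θ)
    hD hres hP (fun x h => hk x (congrArg Prod.fst h) (congrArg Prod.snd h))
    (fun y => by
      obtain ⟨x, a, e⟩ := hc y.1
      obtain ⟨x', b1, -, b3⟩ := fix x y.2
      exact ⟨x', a, Prod.ext (by simpa [b1] using e) (by simpa using b3)⟩)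
    (fun x a h => by
      obtain ⟨x', b1, b2⟩ := hR x a (by simpa using congrArg Prod.fst h)
      obtain ⟨y, c1, c2, c3⟩ := fix x' 0
      exact ⟨y, Prod.ext (by simpa [c1] using b1) (by simpa using c3), c2.trans b2⟩)
  simp only [lin_apply, Prod.ext_iff] at a3 a4
  refine ⟨M, z0, a1, fun T hT => ⟨fun y => ?_, fun w b1 b2 b3 => ?_, fun c => ?_⟩⟩
  · obtain ⟨w, hw⟩ := a2 ((y.1.1, y.2), y.1.2)
    simp only [lin_apply, Prod.ext_iff] at hw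
    exact ⟨w, Prod.ext ((hT w).trans (Prod.ext hw.1.1 hw.2)) (by simpa using hw.1.2)⟩
  · rw [hT, Prod.ext_iff] at b1
    exact Prod.ext_iff.2 (a3 w ⟨⟨b1.1, by simpa using b2⟩, b1.2⟩ b3)
  · obtain ⟨y, ⟨b1, b2⟩, b3⟩ := a4 c
    exact ⟨y, by rw [hT]; exact Prod.ext b1 b3, by simpa using b2⟩

/-- finitely many functionals separate a finite dimensional kernel -/
theorem fin_sep {D : X →L[ℝ] Y} (hD : D.IsFredholm) {κ : Type*} (l : κ → X →L[ℝ] ℂ)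
    (h : ∀ x, D x = 0 → (∀ g, l g x = 0) → x = 0) :
    ∃ s : Finset κ, ∀ x, D x = 0 → (∀ g ∈ s, l g x = 0) → x = 0 := by
  have := hD.finite_ker
  let N : κ → Submodule ℝ D.ker := fun g => ((l g : X →ₗ[ℝ] ℂ).comp D.ker.subtype).ker
  obtain ⟨s, hs⟩ := IsArtinian.set_has_minimal (range fun s : Finset κ => s.inf N) ⟨_, ∅, rfl⟩
    |>.imp fun _ h => h
  obtain ⟨⟨s, rfl⟩, hs⟩ := hs
  classical
  refine ⟨s, fun x h1 h2 => h x h1 fun g => ?_⟩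
  have h3 : (insert g s).inf N = s.inf N := by
    by_contra hn
    exact hs _ ⟨_, rfl⟩ (lt_of_le_of_ne (Finset.inf_mono (Finset.subset_insert g s)) hn)
  have h4 : (⟨x, h1⟩ : D.ker) ∈ (insert g s).inf N := h3 ▸ Submodule.mem_finsetInf.2 h2
  exact Submodule.mem_finsetInf.1 h4 g (Finset.mem_insert_self g s)

/-- the kernel at a point of the link -/
theorem rig2 {D : X × P →L[ℝ] Y} {σ : X →L[ℝ] H} {d : L →L[ℝ] X} {z0 p : P} {ω : X}
    (hb : Bijective (σ.comp d)) (h1 : ∀ η, D (d η, 0) = 0) (h2 : D (ω, (2 * Complex.I) • p) = 0)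
    (hp : 0 < (⟪z0, p⟫_ℂ).re)
    (hk : ∀ v, D v = 0 → σ v.1 = 0 → (⟪p, v.2⟫_ℂ).re = 0 → (⟪z0, v.2⟫_ℂ).im = 0 → v = 0)
    {v : X × P} (h3 : D v = 0) (h4 : (⟪p, v.2⟫_ℂ).re = 0) :
    ∃ (η : L) (θ : ℝ), v.1 = d η + θ • ω ∧ v.2 = ((2 * θ : ℝ) * Complex.I) • p := by
  set θ : ℝ := (⟪z0, v.2⟫_ℂ).im / (2 * (⟪z0, p⟫_ℂ).re) with hθ
  obtain ⟨η, hη⟩ := hb.2 (σ (v.1 - θ • ω))
  have e : θ • ((2 * Complex.I) • p) = ((2 * θ : ℝ) * Complex.I) • p := by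
    rw [Kur.rsmul, smul_smul]; congr 1; push_cast; ring
  have := hk (v - (d η, 0) - θ • (ω, (2 * Complex.I) • p)) (by simp only [map_sub, map_smul, h1, h2, h3, smul_zero, sub_zero])
    (by rw [sub_right_comm]; simpa [sub_eq_zero] using hη.symm)
    (by
      have : (⟪p, p⟫_ℂ).im = 0 := by simpa using inner_self_im (𝕜 := ℂ) p
      simp only [Prod.snd_sub, Prod.smul_snd, e, sub_zero, inner_sub_right, inner_smul_right,
        Complex.sub_re, h4, Complex.mul_re, this, Complex.ofReal_re, Complex.ofReal_im,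
        Complex.I_re, Complex.I_im]
      ring)
    (by
      simp only [Prod.snd_sub, Prod.smul_snd, e, sub_zero, inner_sub_right, inner_smul_right,
        Complex.sub_im, Complex.mul_re, Complex.mul_im, Complex.ofReal_re, Complex.ofReal_im,
        Complex.I_re, Complex.I_im]
      rw [hθ]
      field_simp
      ring)
  rw [sub_sub, sub_eq_zero] at this
  exact ⟨η, θ, by simp [this], by rw [← e]; simpa using congrArg Prod.snd this⟩

end Crest.Agent.X212.Top68
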