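import Crest.Agent.X212.Map77.Qm
import Crest.Agent.X212.Cmp73.Cv

/-! Banach models of perturbed monopole maps on a closed manifold, for any bundle data `d`. -/

set_option autoImplicit false
set_option linter.unusedSectionVars false
noncomputable section
open scoped Manifold ContDiff Topology InnerProductSpace
open MeasureTheory Set Function Filter

namespace Crest.Agent.X212.Top68
open An An.Pre Sob92 Ell97 Map77
open Fred93 (Fr)
open Cmp73 (Cv MB)

variable {E : Type} [NormedAddCommGroup E] [NormedSpace ℝ E] [FiniteDimensional ℝ E]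
  [MeasurableSpace E] [BorelSpace E]
  {HM : Type} [TopologicalSpace HM] {I : ModelWithCorners ℝ E HM} [I.Boundaryless]
  {M : Type} [TopologicalSpace M] [ChartedSpace HM M] [IsManifold I ∞ M]
  [MeasurableSpace M] [T2Space M] [BorelSpace M] [SecondCountableTopology M]
  {ι κ : Type} [Fintype ι] [Fintype κ] [DecidableEq κ]
  {V W : Type} [NormedAddCommGroup V] [InnerProductSpace ℝ V] [FiniteDimensional ℝ V]
  [NormedAddCommGroup W] [InnerProductSpace ℝ W] [FiniteDimensional ℝ W]
  {P S : Type} [NormedAddCommGroup P] [NormedSpace ℝ P] [NormedAddCommGroup S] [NormedSpace ℝ S]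
  {F : An.Fr I M ι} {i j k l : ℕ}

section rep
variable {p : M → V →L[ℝ] V} {q : M → W →L[ℝ] W}

theorem ext_sm {Z : Type*} [TopologicalSpace Z] [T2Space Z] {f g : F.H k p × P → Z}
    (hf : Continuous f) (hg : Continuous g)
    (h : ∀ v z, f (F.toH k p v, z) = g (F.toH k p v, z)) : f = g :=
  ((F.dense_toH k p).prodMap (denseRange_id (X := P))).equalizer hf hg (funext fun w => h w.1 w.2)

/-- `f` is smooth and has the values `e`, `s` at smooth points -/
structure Rep (e : (M → V) → P → M → W) (s : (M → V) → P → S) (f : F.H j p × P → F.H i q × S) :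
    Prop where
  sm : ContDiff ℝ ∞ f
  e : ∀ (v : Sec I p) z, F.val i q (f (F.toH j p v, z)).1 = e v.1 z
  s : ∀ (v : Sec I p) z, (f (F.toH j p v, z)).2 = s v.1 z

theorem pm_apply {X Y : Type} [NormedAddCommGroup X] [NormedSpace ℝ X] [NormedAddCommGroup Y]
    [NormedSpace ℝ Y] (A : X →L[ℝ] Y) (w : X × P) : A.prodMap (.id ℝ P) w = (A w.1, w.2) := rfl

variable (P F i j p) in
/-- inclusion of levels -/
def iP : F.H i p × P →L[ℝ] F.H j p × P := (F.incl i j p).prodMap (.id ℝ P)

theorem iP_apply (w : F.H i p × P) : iP P F i j p w = (F.incl i j p w.1, w.2) := pm_apply _ w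

variable {e : (M → V) → P → M → W} {s : (M → V) → P → S} {c : ℝ} (hS : Sup F.toPre c)
include hS

theorem incl_inj (hj : 4 ≤ j) (h : j ≤ i) : Injective (F.incl i j p) := fun x y e => by
  have := FiniteDimensional.complete ℝ V
  exact val_injective hS (hj.trans h) (by rw [← val_incl hS hj h, e, val_incl hS hj h])

theorem Rep.incl {f : F.H j p × P → F.H i q × S} {f' : F.H l p × P → F.H k q × S}
    (h : Rep e s f) (h' : Rep e s f') (hl : j ≤ l) (hi : 4 ≤ i) (hk : i ≤ k) (w : F.H l p × P) :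
    iP S F k i q (f' w) = f (iP P F l j p w) := by
  have := FiniteDimensional.complete ℝ W
  refine congrFun (ext_sm (f := fun w => iP S F k i q (f' w)) (g := fun w => f (iP P F l j p w))
    ((iP S F k i q).continuous.comp h'.sm.continuous)
    (h.sm.continuous.comp (iP P F l j p).continuous) fun v z => ?_) w
  rw [iP_apply, iP_apply, incl_toH hl]
  exact Prod.ext (val_injective hS hi (((val_incl hS hi hk _).trans (h'.e v z)).trans (h.e v z).symm))
    ((h'.s v z).trans (h.s v z).symm)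

theorem Rep.uniq {f f' : F.H j p × P → F.H i q × S} (h : Rep e s f) (h' : Rep e s f')
    (hi : 4 ≤ i) : f = f' := by
  have := FiniteDimensional.complete ℝ W
  exact ext_sm h.sm.continuous h'.sm.continuous fun v z =>
    Prod.ext (val_injective hS hi ((h.e v z).trans (h'.e v z).symm)) ((h.s v z).trans (h'.s v z).symm)

theorem Rep.incl' {f : F.H j p × P → F.H i q × S} {f' : F.H l p × P → F.H k q × S}
    (h : Rep e s f) (h' : Rep e s f') (hl : j ≤ l) (hi : 4 ≤ i) (hk : i ≤ k) (w y : F.H l p × P) :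
    iP S F k i q (fderiv ℝ f' w y) = fderiv ℝ f (iP P F l j p w) (iP P F l j p y) := by
  have h1 := (iP S F k i q).hasFDerivAt.comp w
    (h'.sm.differentiable (by simp) w).hasFDerivAt
  have h2 := (h.sm.differentiable (by simp) _).hasFDerivAt.comp w (iP P F l j p).hasFDerivAt
  have e : f ∘ iP P F l j p = iP S F k i q ∘ f' := funext fun w => (h.incl hS h' hl hi hk w).symm
  rw [e] at h2
  exact DFunLike.congr_fun (h1.unique h2) y

omit hS in
/-- the derivative along a smooth direction -/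
theorem Rep.der {f : F.H j p × P → F.H i q × S} (h : Rep e s f) (v v' : Sec I p) (z z' : P) :
    (∀ x, HasDerivAt (fun t : ℝ => e (v.1 + t • v'.1) (z + t • z') x)
      (F.val i q (fderiv ℝ f (F.toH j p v, z) (F.toH j p v', z')).1 x) 0) ∧
    HasDerivAt (fun t : ℝ => s (v.1 + t • v'.1) (z + t • z'))
      (fderiv ℝ f (F.toH j p v, z) (F.toH j p v', z')).2 0 := by
  have h1 : HasDerivAt (fun t : ℝ => (F.toH j p v, z) + t • (F.toH j p v', z'))
      (F.toH j p v', z') 0 := by
    simpa using ((hasDerivAt_id (0 : ℝ)).smul_const (F.toH j p v', z')).const_add (F.toH j p v, z)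
  have h2 := HasFDerivAt.comp_hasDerivAt_of_eq (0 : ℝ)
    (h.sm.differentiable (by simp) (F.toH j p v, z)).hasFDerivAt h1 (by simp)
  have e1 : ∀ t : ℝ, (F.toH j p v, z) + t • (F.toH j p v', z') =
      (F.toH j p (v + t • v'), z + t • z') := fun t => by simp
  simp only [comp_def, e1] at h2
  refine ⟨fun x => ?_, ?_⟩
  · refine ((F.ev i q x ∘L ContinuousLinearMap.fst ℝ _ S).hasFDerivAt.comp_hasDerivAt _
      h2).congr_of_eventuallyEq (.of_forall fun t => ?_)
    exact (congrFun (h.e (v + t • v') (z + t • z')) x).symm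
  · refine ((ContinuousLinearMap.snd ℝ _ S).hasFDerivAt.comp_hasDerivAt _
      h2).congr_of_eventuallyEq (.of_forall fun t => ?_)
    exact (h.s (v + t • v') (z + t • z')).symm

/-- convergence in all Sobolev norms is smooth convergence -/
theorem cv_of_H {α : Type} {l : Filter α} {v : α → Sec I p}
    (h : ∀ j, Tendsto (fun a => F.toH j p (v a)) l (𝓝 0)) :
    Cv I l univ (fun a => (v a).1) fun _ => 0 := by
  have := FiniteDimensional.complete ℝ V
  have key : ∀ n (f : α → M → V), (∀ a, Sm I (f a)) → (∃ C, ∀ᶠ a in l, F.CB n (f a) C) →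
      ∀ x, MB I l x n f := fun n => by
    have h0 : ∀ {n} (f : α → M → V), (∀ a, Sm I (f a)) → (∃ C, ∀ᶠ a in l, F.CB n (f a) C) →
        ∀ x, MB I l x 0 f := fun f h1 ⟨C, h2⟩ x => MB.zero_of (.of_forall fun q => h1 _ _)
      ⟨C, (tendsto_fst.eventually h2).mono fun q hq => CB_bound hq _⟩
    induction n with
    | zero => exact h0
    | succ n ih =>
      exact fun f h1 ⟨C, h2⟩ x => MB.gainP F.toPre (h0 f h1 ⟨C, h2⟩ x) fun a => ih _
        (fun b => F.sm_D (h1 b) a) ⟨C, h2.mono fun b hb => (CB_succ.1 hb).2 a⟩ x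
  refine ⟨fun n x _ => key n _ (fun a => (v a).2.1) ⟨√|c| * 1, ?_⟩ x, fun x _ => ?_⟩
  · filter_upwards [(h (n + 4)).norm.eventually (gt_mem_nhds (by simp : ‖(0 : F.H _ p)‖ < 1))]
      with a ha
    have h1 := CB_val hS n le_rfl (F.toH (n + 4) p (v a))
    rw [val_toH hS (by omega)] at h1
    exact CB_mono h1 (by gcongr)
  · have h1 := ((F.ev 4 p x).continuous.tendsto _).comp (h 4)
    rw [map_zero] at h1
    exact h1.congr fun a => congrFun (val_toH hS le_rfl (v a)) x

end rep

variable {d : Bd M ι κ} {u : M → Cf ι κ} {e : (M → Cf ι κ) → P → M → Ef ι κ}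
  {s : (M → Cf ι κ) → P → S}

/-- configurations -/
abbrev XH (F : An.Fr I M ι) (d : Bd M ι κ) (k : ℕ) : Type := F.H (k + 1) d.pC
/-- equations -/
abbrev YH (F : An.Fr I M ι) (d : Bd M ι κ) (k : ℕ) : Type := F.H k d.pE

variable (F d u e) in
/-- the perturbation -/
def rest (v : M → Cf ι κ) (z : P) (x : M) : Ef ι κ :=
  e v z x - d.pE x (d.N F (fun y => u y + v y) x - d.N F u x)

variable (F d u e s) in
/-- `e` is the monopole map up to a map that gains a derivative -/
def Gain : Prop := ∀ j, 7 ≤ j → ∃ g : XH F d j × P → YH F d (j + 1) × S, Rep (rest F d u e) s g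

theorem fr_pert {X Y Z H : Type} [NormedAddCommGroup X] [NormedSpace ℝ X] [CompleteSpace X]
    [NormedAddCommGroup Y] [NormedSpace ℝ Y] [CompleteSpace Y] [NormedAddCommGroup Z]
    [NormedSpace ℝ Z] [NormedAddCommGroup H] [NormedSpace ℝ H] [CompleteSpace H] {A : X →L[ℝ] Z}
    {n : ℤ} (h : Fr A n) (a : Z ≃L[ℝ] H × Y) {R : X →L[ℝ] H} {L D : X →L[ℝ] Y}
    (e : ∀ x, a (A x) = (R x, L x)) {K : X → Y} (hK : IsCompactOperator K)
    (e' : ∀ x, D x = L x + K x) : Fr (D.prod R) n := by
  have h1 : Fr (L.prod R) n := (h.conj (.refl ℝ _) (a.trans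
    (ContinuousLinearEquiv.prodComm ℝ _ _))).congr fun x => by simp [e]
  refine h1.of_sub_compact ?_
  have e2 : ⇑(D.prod R - L.prod R) = ContinuousLinearMap.inl ℝ Y H ∘ K :=
    funext fun x => by simp [e']
  exact e2 ▸ hK.clm_comp _

section cmb
variable {X Y Z : Type} [Add Y] (N : X → Y) (a : Z → Y) (g : X × P → Z × S) (w : X × P)

/-- main term plus perturbation -/
def cmb : Y × S := (N w.1 + a (g w).1, (g w).2)
theorem cmb_fst : (cmb N a g w).1 = N w.1 + a (g w).1 := rfl
theorem cmb_snd : (cmb N a g w).2 = (g w).2 := rfl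

end cmb

variable (u) in
/-- the total map -/
def tot (g : XH F d k × P → YH F d (k + 1) × S) : XH F d k × P → YH F d k × S :=
  cmb (d.NH F.toPre F k u) (F.incl (k + 1) k _) g

theorem tot_fst (g : XH F d k × P → YH F d (k + 1) × S) (w : XH F d k × P) : (tot u g w).1 =
    d.NH F.toPre F k u w.1 + F.incl (k + 1) k _ (g w).1 := cmb_fst _ _ g w

theorem tot_snd (g : XH F d k × P → YH F d (k + 1) × S) (w : XH F d k × P) :
    (tot u g w).2 = (g w).2 := cmb_snd _ _ g w

variable (u) in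
theorem sm_NH : ContDiff ℝ ∞ (d.NH F.toPre F k u) :=
  (d.LL F.toPre F k u).contDiff.add ((F.incl (k + 1) k d.pE).contDiff.comp
    ((d.βH F.toPre (k + 1)).contDiff.clm_apply contDiff_id))

variable (u) in
theorem sm_tot {g : XH F d k × P → YH F d (k + 1) × S} (hg : ContDiff ℝ ∞ g) :
    ContDiff ℝ ∞ (tot u g) :=
  (((sm_NH u).comp contDiff_fst).add ((F.incl _ _ _).contDiff.comp hg.fst)).prodMk hg.snd

variable (u) in
theorem der_tot {g : XH F d k × P → YH F d (k + 1) × S} (hg : ContDiff ℝ ∞ g) (w : XH F d k × P) :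
    ∃ K : XH F d k × P →L[ℝ] YH F d (k + 1), ∀ y, (fderiv ℝ (tot u g) w y).1 =
      d.LL F.toPre F k u y.1 + F.incl (k + 1) k _ (K y) := by
  have h0 : ContDiff ℝ ∞ fun w : XH F d k × P => d.βH F.toPre (k + 1) w.1 w.1 + (g w).1 :=
    (((d.βH F.toPre (k + 1)).contDiff.comp contDiff_fst).clm_apply contDiff_fst).add hg.fst
  have h1 := ((d.LL F.toPre F k u).hasFDerivAt.comp w hasFDerivAt_fst).add
    ((F.incl (k + 1) k d.pE).hasFDerivAt.comp w (h0.differentiable (by simp) w).hasFDerivAt)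
  have h2 := ((sm_tot u hg).differentiable (by simp) w).hasFDerivAt.fst
  exact ⟨_, DFunLike.congr_fun (h2.unique (h1.congr_of_eventuallyEq (.of_forall fun w =>
    (tot_fst g w).trans ((add_assoc _ _ _).trans (congrArg _ (map_add _ _ _).symm)))))⟩

variable [CompactSpace M] (h : d.Hy F F) (hu : F.Cb u)
include h hu

theorem rep_tot (hk : 6 ≤ k) {g : XH F d k × P → YH F d (k + 1) × S}
    (hg : Rep (rest F d u e) s g) : Rep e s (tot u g) := by
  refine ⟨sm_tot u hg.sm, fun v z => funext fun x => ?_, fun v z => (tot_snd g _).trans (hg.s v z)⟩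
  have e1 := val_toH h.sup (k := k + 1) (by omega) v
  rw [tot_fst, val_add, Pi.add_apply, h.val_NH hu hk _ (by rw [e1]; exact v.2.1),
    val_incl h.sup (by omega) k.le_succ, hg.e, e1, rest, add_sub_cancel]

theorem incl_LL (hj : k ≤ j) (y : XH F d j) : F.incl j k _ (d.LL F.toPre F j u y) =
    d.LL F.toPre F k u (F.incl (j + 1) (k + 1) _ y) := h.toTw.incl (h.nc_lin hu) hj y

theorem row_zero (hk : 4 ≤ k) (hj : k ≤ j) {y : XH F d j}
    (h1 : d.RR F.toPre F k u (F.incl (j + 1) (k + 1) _ y) = 0) : d.RR F.toPre F j u y = 0 :=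
  incl_inj h.sup hk hj (((h.toTw.incl (h.nc_row hu) hj y).trans h1).trans (map_zero _).symm)

/-- the bootstrap -/
theorem reg_of (hk : 4 ≤ k) {x : XH F d k} (h2 : d.RR F.toPre F k u x = 0)
    (H : ∀ j, k ≤ j → ∀ y : XH F d j, F.incl (j + 1) (k + 1) _ y = x →
      d.LL F.toPre F j u y ∈ range (F.incl (j + 1) j d.pE)) :
    ∃ v : Sec I d.pC, F.toH _ _ v = x := by
  have key : ∀ j, k ≤ j → ∃ y : XH F d j, F.incl (j + 1) (k + 1) _ y = x := fun j hj => by
    induction j, hj using Nat.le_induction with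
    | base => exact ⟨x, incl_self _⟩
    | succ j hj ih =>
      obtain ⟨y, hy⟩ := ih
      obtain ⟨y', e'⟩ : y ∈ range (F.incl (j + 2) (j + 1) d.pC) :=
        h.reg_pair (h.nc_row hu) (h.nc_lin hu) rfl (h.cliff_mix u u) j.le_succ
        (x := y) ⟨0, (map_zero _).trans (row_zero h hu hk hj (hy ▸ h2)).symm⟩ (H j hj y hy)
      exact ⟨y', by rw [← hy, ← e', incl_incl (by omega) (by omega)]⟩
  refine sec_of_all h.t0.choose_spec fun j hj => ?_
  obtain ⟨j, rfl⟩ : ∃ i, j = i + 1 := ⟨j - 1, by omega⟩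
  exact key j (by omega)

/-- the index of a perturbed linearisation -/
theorem fr_of {n : ℤ} (hI : Fr ((d.full F u).H F k) n) {D : XH F d k →L[ℝ] YH F d k}
    (K : XH F d k →L[ℝ] YH F d (k + 1))
    (e : ∀ x, D x = d.LL F.toPre F k u x + F.incl (k + 1) k _ (K x)) :
    Fr (D.prod (d.RR F.toPre F k u)) n := by
  have h0 : Fr (d.FF F.toPre F k u) n := hI
  refine fr_pert h0 (sumH F.toPre k d.g d.pE) (fun x => ?_)
    ((Cht98.rellich (F := F.toPre) (q := d.pE) k.lt_succ_self).comp_clm K) e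
  rw [h.FF_eq hu, sumH_apply, map_add, map_add, fH_iH1, fH_iH2, sH_iH1, sH_iH2, add_zero, zero_add]

theorem gard_row (j : ℕ) : ∃ K, ∀ x : XH F d (j + 1), d.RR F.toPre F (j + 1) u x = 0 →
    ‖x‖ ≤ K * (‖iH2 _ (j + 1) d.g _ (d.LL F.toPre F (j + 1) u x)‖ +
      ‖F.incl (j + 1) 0 _ (F.incl (j + 2) (j + 1) _ x)‖) := by
  obtain ⟨C, h1, h2⟩ := h.good (h.nc_full hu)
  obtain ⟨K, hK⟩ : ∃ K, Fred93.Est (d.FF F.toPre F (j + 1) u) (F.incl (j + 2) 0 d.pC) K :=
    gard h1 h2 (h.cliffL_full h.P u) (j + 1)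
  refine ⟨K, fun x hx => (hK x).trans_eq ?_⟩
  rw [h.FF_eq hu x, hx, map_zero, zero_add, incl_incl (by omega) (by omega)]

variable (hg : Gain F d u e s) (hk : 7 ≤ k)
include hg hk

theorem Gain.ex : ∃ f : XH F d k × P → YH F d k × S, Rep e s f :=
  let ⟨_, h1⟩ := hg k hk
  ⟨_, rep_tot h hu (by omega) h1⟩

variable {f : XH F d k × P → YH F d k × S} (hf : Rep e s f)
include hf

theorem Gain.der (w : XH F d k × P) : ∃ K : XH F d k × P →L[ℝ] YH F d (k + 1), ∀ y,
    (fderiv ℝ f w y).1 = d.LL F.toPre F k u y.1 + F.incl (k + 1) k _ (K y) := by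
  obtain ⟨g, h1⟩ := hg k hk
  rw [hf.uniq h.sup (rep_tot h hu (by omega) h1) (by omega)]
  exact der_tot u h1.sm w

omit hg in
theorem tot_zero (hj : k ≤ j) {g : XH F d j × P → YH F d (j + 1) × S}
    (h3 : Rep (rest F d u e) s g) {w : XH F d j × P} (h1 : (f (iP P F _ _ _ w)).1 = 0) :
    d.LL F.toPre F j u w.1 = F.incl (j + 1) j _ (-(d.βH F.toPre (j + 1) w.1 w.1 + (g w).1)) := by
  have h4 := congrArg Prod.fst
    (hf.incl h.sup (rep_tot h hu (by omega) h3) (by omega) (by omega) hj w)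
  rw [iP_apply] at h4
  have h5 := (tot_fst g w).symm.trans
    (incl_inj h.sup (by omega) hj ((h4.trans h1).trans (map_zero _).symm))
  rw [map_neg, map_add, eq_neg_iff_add_eq_zero, ← add_assoc]
  exact h5

/-- nonlinear regularity -/
theorem Gain.reg {w : XH F d k × P} (h1 : (f w).1 = 0) (h2 : d.RR F.toPre F k u w.1 = 0) :
    ∃ v : Sec I d.pC, F.toH _ _ v = w.1 :=
  reg_of h hu (by omega) h2 fun j hj y hy =>
    let ⟨_, h3⟩ := hg j (by omega)
    ⟨_, (tot_zero h hu hk hf hj h3 (w := (y, w.2)) (by rw [iP_apply, hy]; exact h1)).symm⟩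

/-- the linearised equations on a higher level -/
theorem Gain.up (v : Sec I d.pC) (z z' : P) (y : Sec I d.pE) (hj : k ≤ j) (x : XH F d j)
    (h1 : (fderiv ℝ f (F.toH _ _ v, z) (F.incl (j + 1) (k + 1) _ x, z')).1 = F.toH _ _ y) :
    d.LL F.toPre F j u x ∈ range (F.incl (j + 1) j d.pE) := by
  obtain ⟨f', hf'⟩ := hg.ex h hu (k := j) (by omega)
  obtain ⟨K, hK⟩ := hg.der h hu (by omega) hf' (F.toH _ _ v, z)
  have h4 := congrArg Prod.fst
    (hf.incl' h.sup hf' (by omega) (by omega) hj (F.toH _ _ v, z) (x, z'))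
  rw [iP_apply, iP_apply, iP_apply, incl_toH (by omega), hK] at h4
  have h5 := incl_inj h.sup (by omega) hj ((h4.trans h1).trans (incl_toH hj y).symm)
  exact ⟨F.toH _ _ y - K (x, z'), by
    rw [map_sub, incl_toH j.le_succ]; exact sub_eq_of_eq_add h5.symm⟩

/-- linear regularity -/
theorem Gain.reg' (v : Sec I d.pC) (z z' : P) (y : Sec I d.pE) {x : XH F d k}
    (h1 : (fderiv ℝ f (F.toH _ _ v, z) (x, z')).1 = F.toH _ _ y)
    (h2 : d.RR F.toPre F k u x = 0) : ∃ v : Sec I d.pC, F.toH _ _ v = x :=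
  reg_of h hu (by omega) h2 fun _ hj x' hx => hg.up h hu hk hf v z z' y hj x' (hx ▸ h1)

theorem Gain.fr {n : ℤ} (hI : Fr ((d.full F u).H F k) n) (w : XH F d k × P) :
    Fr ((ContinuousLinearMap.fst ℝ _ S ∘L fderiv ℝ f w ∘L ContinuousLinearMap.inl ℝ _ P).prod
      (d.RR F.toPre F k u)) n :=
  let ⟨K, hK⟩ := hg.der h hu hk hf w
  fr_of h hu hI (K ∘L ContinuousLinearMap.inl ℝ _ P) fun x => hK (x, 0)

/-- solutions in Coulomb gauge converge smoothly -/
theorem Gain.cv (h0 : (f 0).1 = 0) {α : Type} {l : Filter α} {v : α → Sec I d.pC} {z : α → P}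
    (h1 : Tendsto (fun a => F.toH (k + 1) _ (v a)) l (𝓝 0)) (hz : Tendsto z l (𝓝 0))
    (h2 : ∀ᶠ a in l, (f (F.toH _ _ (v a), z a)).1 = 0 ∧
      d.RR F.toPre F k u (F.toH _ _ (v a)) = 0) : Cv I l univ (fun a => (v a).1) fun _ => 0 := by
  have key : ∀ j, k ≤ j → Tendsto (fun a => F.toH (j + 1) _ (v a)) l (𝓝 0) := fun j hj => by
    induction j, hj using Nat.le_induction with
    | base => exact h1
    | succ j hj ih =>
      obtain ⟨g, h3⟩ := hg j (by omega)
      obtain ⟨K, hK⟩ := gard_row h hu j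
      let r : XH F d j × P → ℝ := fun w => K * (‖iH2 _ (j + 1) d.g _
        (-(d.βH F.toPre (j + 1) w.1 w.1 + (g w).1))‖ + ‖F.incl (j + 1) 0 _ w.1‖)
      have hr : Continuous r := by
        have := h3.sm.continuous
        have := (d.βH F.toPre (j + 1)).continuous₂
        fun_prop
      have e0 := tot_zero h hu hk hf hj h3 (w := 0) (by rw [map_zero]; exact h0)
      have e1 : -(d.βH F.toPre (j + 1) 0 0 + (g 0).1) = 0 := incl_inj h.sup (by omega) j.le_succ
        (e0.symm.trans ((map_zero _).trans (map_zero _).symm))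
      have r0 : r 0 = 0 := by
        simp only [r, Prod.fst_zero]
        rw [e1, map_zero, map_zero, norm_zero, norm_zero, add_zero, mul_zero]
      refine squeeze_zero_norm' (h2.mono fun a ha => ?_)
        (r0 ▸ (hr.tendsto 0).comp (ih.prodMk_nhds hz))
      have e2 := tot_zero h hu hk hf hj h3 (w := (F.toH _ _ (v a), z a))
        (by rw [iP_apply, incl_toH (by omega)]; exact ha.1)
      have e3 := incl_LL h hu j.le_succ (F.toH (j + 2) d.pC (v a))
      rw [incl_toH (by omega)] at e3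
      have e4 := incl_inj h.sup (by omega) j.le_succ (e3.trans e2)
      refine (hK _ (row_zero h hu (by omega) (hj.trans j.le_succ)
        (by rw [incl_toH (by omega)]; exact ha.2))).trans_eq ?_
      rw [incl_toH (by omega)]
      exact congrArg (fun y => K * (‖iH2 _ (j + 1) d.g _ y‖ + _)) e4
  refine cv_of_H h.sup fun j => ?_
  have := ((F.incl (j + k + 1) j d.pC).continuous.tendsto' 0 0 (map_zero _)).comp
    (key (j + k) (by omega))
  exact this.congr fun a => incl_toH (by omega) _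

end Crest.Agent.X212.Top68
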