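import Crest.Agent.X212.Top68.Mdl
import Crest.Agent.X212.Top68.Abs
import Crest.Agent.X212.Wz78.Par

/-! Gauge directions, invariance of the zero sets, the kernel of the linearisation. -/

set_option autoImplicit false
set_option linter.unusedSectionVars false
noncomputable section
open scoped Manifold ContDiff Topology InnerProductSpace
open MeasureTheory Set Function Filter

namespace Crest.Agent.X212.Top68
open An An.Pre Sob92 Abel74 Map77 Eqv71
open Eq82 (var vD vC Ed fz wz)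

variable {E : Type} [NormedAddCommGroup E] [NormedSpace ℝ E] [FiniteDimensional ℝ E]
  [MeasurableSpace E] [BorelSpace E]
  {HM : Type} [TopologicalSpace HM] {I : ModelWithCorners ℝ E HM} [I.Boundaryless]
  {M : Type} [TopologicalSpace M] [ChartedSpace HM M] [IsManifold I ∞ M]
  [MeasurableSpace M] [T2Space M] [BorelSpace M] [SecondCountableTopology M]
  {ι : Type} [Fintype ι] {lam : Type} [Fintype lam] {r n k : ℕ}
  {B : Base M ι lam} {G : Geo I M ι lam} {c : Cfg M ι lam 0} {ξ : M → c.m.A}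

section abs
variable {X P L Z Z' Y : Type} [NormedAddCommGroup X] [NormedSpace ℝ X] [NormedAddCommGroup P]
  [NormedSpace ℝ P] [NormedAddCommGroup L] [NormedSpace ℝ L] [NormedAddCommGroup Z]
  [NormedSpace ℝ Z] [NormedAddCommGroup Z'] [NormedSpace ℝ Z'] [NormedAddCommGroup Y]
  [NormedSpace ℝ Y]

theorem inf_inv {φ : X × P → Z} {T : X × P →L[ℝ] Z} {w : X × P} (hφ : HasFDerivAt φ T w)
    {a : L × X × P → X × P} {d : L →L[ℝ] X} (ha : HasStrictFDerivAt a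
      ((ContinuousLinearMap.inl ℝ X P ∘L d).coprod (ContinuousLinearMap.id ℝ _)) (0, w))
    (h0 : a (0, w) = w) (h : ∀ η, φ (a (η, w)) = 0) (η : L) : T (d η, 0) = 0 := by
  have h1 := (h0.symm ▸ hφ : HasFDerivAt φ T (a (0, w))).comp (0 : L)
    (ha.hasFDerivAt.comp (0 : L) (hasFDerivAt_prodMk_left (𝕜 := ℝ) (0 : L) w))
  have h2 : (φ ∘ a ∘ fun η => (η, w)) = fun _ => 0 := funext h
  rw [h2] at h1
  simpa using DFunLike.congr_fun (h1.unique (hasFDerivAt_const _ _)) η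

/-- comparison of derivatives along linear substitutions -/
theorem der_cmp {f : X → Z} {g : P → Z'} (hf : Differentiable ℝ f) (hg : Differentiable ℝ g)
    (a : L →L[ℝ] X) (b : L →L[ℝ] P) (p : Z →L[ℝ] Y) (q : Z' →L[ℝ] Y)
    (h : ∀ x, p (f (a x)) = q (g (b x))) (x : L) : p (fderiv ℝ f 0 (a x)) = q (fderiv ℝ g 0 (b x)) := by
  have h1 := p.hasFDerivAt.comp (0 : L) ((hf (a 0)).hasFDerivAt.comp (0 : L) a.hasFDerivAt)
  have h2 := q.hasFDerivAt.comp (0 : L) ((hg (b 0)).hasFDerivAt.comp (0 : L) b.hasFDerivAt)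
  rw [show (p ∘ f ∘ a) = q ∘ g ∘ b from funext h] at h1
  simpa using DFunLike.congr_fun (h1.unique h2) x

end abs

variable (B G) in
/-- the equations -/
structure Zr (τ : Pt M ι lam r n) (c : Cfg M ι lam r) : Prop where
  D : ∀ x, c.eD G τ x = 0
  C : ∀ x, c.eC B G τ x = 0
  S : ∀ i, τ.S c i = 0

theorem ev_zero {τ : Pt M ι lam r n} {c : Cfg M ι lam r} :
    ev B G τ c = 0 ↔ (∀ x, c.eD G τ x = 0) ∧ ∀ x, c.eC B G τ x = 0 :=
  ⟨fun h => ⟨fun x => by rw [← f2_ev (B := B), h]; simp, fun x => by rw [← s2_ev, h]; simp⟩,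
    fun h => funext fun x => by simp [ev, h.1, h.2]⟩

variable (G c) in
/-- configurations -/
abbrev XB (B : Base M ι lam) (k : ℕ) : Type := XH G.F (bdm B c.m) k
variable (G c) in
/-- equations -/
abbrev YB (B : Base M ι lam) (k : ℕ) : Type := YH G.F (bdm B c.m) k
variable (G c) in
/-- the Lie algebra -/
abbrev LB (B : Base M ι lam) (k : ℕ) : Type := G.F.H k (bdm B c.m).g
variable (I c) in
/-- smooth coordinates -/
abbrev SB (B : Base M ι lam) : Type := Sec I (bdm B c.m).pC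
/-- a smooth point -/
abbrev tH (G : Geo I M ι lam) (k : ℕ) (v : SB I c B) : XB G c B k := G.F.toH (k + 1) _ v
variable (G c) in
/-- the Coulomb row -/
abbrev σB (B : Base M ι lam) (k : ℕ) : XB G c B k →L[ℝ] LB G c B k :=
  (bdm B c.m).RR G.F.toPre G.F k (base c.W c.Φ)
/-- the infinitesimal action -/
abbrev dB (G : Geo I M ι lam) (k : ℕ) (v : SB I c B) :
    LB G c B (k + 2) →L[ℝ] XB G c B k :=
  (bdm B c.m).DD G.F.toPre G.F (k + 1) fun x => base c.W c.Φ x + v.1 x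

/-- the clauses of `GaQ` -/
structure Ga (a : LB G c B (k + 2) × XB G c B k × Pz r → XB G c B k × Pz r)
    (dd : XB G c B k × Pz r → LB G c B (k + 2) →L[ℝ] XB G c B k) : Prop where
  cont : Continuous dd
  val : ∀ v p, dd (tH G k v, p) = dB G k v
  zero : ∀ w, a (0, w) = w
  snd : ∀ q, (a q).2 = q.2.2
  der : ∀ w, HasStrictFDerivAt a ((ContinuousLinearMap.inl ℝ _ (Pz r) ∘L dd w).coprod
    (ContinuousLinearMap.id ℝ _)) (0, w)
  eqv : ∀ η (v v' : SB I c B) p, (a (η, tH G k v, p)).1 = tH G k v' →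
    ∃ u, Ce B G.F (cv c v.1 p) (cv c v'.1 p) u 1
  cl : ∀ η (v : SB I c B) p (Z : Set (XB G c B k × Pz r)), IsClosed Z →
    (∀ (v' : SB I c B) u, Ce B G.F (cv c v.1 p) (cv c v'.1 p) u 1 → (tH G k v', p) ∈ Z) →
    a (η, tH G k v, p) ∈ Z

theorem GaQ.ga (h : GaQ B G c (bdm B c.m) r k) : ∃ a dd, Ga (B := B) (G := G) (c := c) (r := r)
    (k := k) a dd :=
  let ⟨a, dd, h1, h2, h3, h4, h5, h6, h7⟩ := h
  ⟨a, dd, h1, h2, h3, h4, h5, h6, h7⟩

theorem tH_zero : (tH G k (0 : SB I c B), (0 : Pz r)) = 0 := by rw [tH, map_zero]; rfl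

variable [CompactSpace M] (h : TP B G c ξ)
include h

theorem TP.hy : (bdm B c.m).Hy G.F G.F := hy_bdm h.hB h.hG h.tame h.ad.ok
theorem TP.cb : G.F.Cb (base c.W c.Φ) := cb_base (ad0 h.ad)
theorem TP.a0 (v : SB I c B) (p : Pz r) : Ad0 (cv c v.1 p) B G := ad0_cv (ad0 h.ad) v p
theorem TP.cb' (v : SB I c B) : G.F.Cb fun x => base c.W c.Φ x + v.1 x :=
  Cb_add h.cb (Cb_of_compact v.2.1)

theorem TP.zr {τ : Pt M ι lam r n} (w : Wp B G.F τ) {c c' : Cfg M ι lam r} (a : Ad0 c B G)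
    (a' : Ad0 c' B G) {u : M → CL c.m.V c'.m.V} {ζ : Circle} (e : Ce B G.F c c' u ζ)
    (z : Zr B G τ c) : Zr B G τ c' :=
  let ⟨h1, h2, h3⟩ := w.nat h.hB h.hG h.tame a a' e
  ⟨fun x => by rw [h1, z.D]; simp [cs], fun x => fm_ext fun s => by rw [h2, z.C]; simp,
    fun i => by rw [h3, z.S, mul_zero]⟩

theorem TP.sg {c c' : Cfg M ι lam r} (a : Ad0 c B G) (a' : Ad0 c' B G) {u : M → CL c.m.V c'.m.V}
    {ζ : Circle} (e : Ce B G.F c c' u ζ) {g : Sg M lam} (hg : g.OK G.F) :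
    c'.sg G.F g = (ζ : ℂ) ^ 2 * c.sg G.F g := by
  simpa [wpt, Cfg.tS] using ((Wp.wpt (n := 1) (fun _ : Unit => .cut 0 1 g) (fun _ => 1)
    fun _ => hg).nat h.hB h.hG h.tame a a' e).2.2 0

/-- gauge directions -/
theorem TP.dB_toH (v : SB I c B) (p : Pz r) (η : Sec I (bdm B c.m).g) :
    ∃ y : SB I c B, dB G k v (G.F.toH _ _ η) = tH G k y ∧
      (∀ x a, fa (y.1 x) a = -Wz78.nab I G.F.e (c.m.adW (cv c v.1 p).W) a η.1 x) ∧
      ∀ x, fp (y.1 x) = opL (η.1 x) ((cv c v.1 p).Φ x) := by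
  obtain ⟨y, h1, h2⟩ := h.hy.rep (h.hy.nc_d0 (h.cb' v)) (k + 1) η
  have a := h.a0 v p
  have hη : ∀ x, η.1 x ∈ c.m.gS x := fun x => η.2.2.2 x ▸ Wz78.pg_mem x _
  have h3 := fun x => (congrFun h1 x).trans
    (base_cv v.1 p ▸ op_d0 h.hy (cv c v.1 p).W (cv c v.1 p).Φ η x)
  refine ⟨y, h2, fun x b => ?_, fun x => ?_⟩
  · rw [h3, f2_ps, map_add, f2_i1, f2_i2, add_zero, h.hy.p1_fix x]
    · rfl
    · exact fun b => Wz78.pg_of_mem (neg_mem (Wz78.nab_mem_g a.ok a.conn b (η.2.1 x) hη))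
    · intro b
      simp only [smul_neg, Finset.sum_neg_distrib]
      exact congrArg Neg.neg ((geo_frm h.hG).projN (Eqv71.con_adW a.conn) b η.1 x)
  · rw [h3, s2_ps, map_add, s2_i1, s2_i2, zero_add]
    exact (ap (Wz78.g_pp a.ok (hη x)) _).symm.trans (congrArg (opL (η.1 x)) (a.pos x))

theorem TP.dB_reg (v : SB I c B) {η : LB G c B (k + 2)} {y : SB I c B} (e : dB G k v η = tH G k y) :
    ∃ η' : Sec I (bdm B c.m).g, G.F.toH _ _ η' = η :=
  let ⟨_, h1, h2⟩ := h.hy.good (h.hy.nc_d0 (h.cb' v))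
  (Ell97.sec_of_eq h1 h2 (h.hy.cliffL_d0 h.hy.P _) (w := y) e).imp fun _ h => h.1

theorem TP.bij : Bijective ((σB G c B k).comp (dB G k 0)) := by
  have e : (fun x => base c.W c.Φ x + (0 : SB I c B).1 x) = base c.W c.Φ := funext fun x => add_zero _
  have hc := h.hy.cliffL_d0 (F := G.F) h.hy.P (base c.W c.Φ)
  have h1 : Injective ((σB G c B k).comp (dB G k 0)) := by
    refine (injective_iff_map_eq_zero _).2 fun η hη => ?_
    have h2 : dB G k 0 η = tH G k 0 := by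
      rw [tH, map_zero]
      unfold dB at hη ⊢
      rw [e] at hη ⊢
      exact h.hy.LL_eq_zero (h.hy.nc_d0 h.cb) hc η hη
    obtain ⟨η, rfl⟩ := h.dB_reg 0 h2
    obtain ⟨y, a1, -, a3⟩ := h.dB_toH (k := k) 0 (0 : Pz 0) η
    obtain rfl : y = 0 := Ell97.toH_inj _ _ _ (a1.symm.trans h2)
    have : η = 0 := Subtype.ext (funext fun x => (h.pt x).eq_zero_of_apply
      (η.2.2.2 x ▸ Wz78.pg_mem x _) (h.pt x).pΦ (h.ne x) (by simpa using (a3 x).symm))
    rw [this, map_zero]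
  refine ⟨h1, Fred93.Fr.surj_of_inj ?_ h1⟩
  unfold dB
  rw [e]
  exact h.hy.fr_LL (h.hy.nc_d0 h.cb) hc k

variable {τ : Pt M ι lam r n} {f : XB G c B k × Pz r → YB G c B k × (Fin n → ℂ)}
  (hf : Rt B G c _ τ f) (hk : 7 ≤ k)
include hf hk

theorem TP.fst_zero (v : SB I c B) (p : Pz r) :
    (f (tH G k v, p)).1 = 0 ↔ ev B G τ (cv c v.1 p) = 0 := by
  rw [← hf.e v p]
  exact ⟨fun e => by rw [e, val_zero], fun e => val_injective h.hy.sup (by omega)
    (e.trans val_zero.symm)⟩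

theorem TP.zero_iff (v : SB I c B) (p : Pz r) : f (tH G k v, p) = 0 ↔ Zr B G τ (cv c v.1 p) := by
  rw [Prod.ext_iff, Prod.fst_zero, h.fst_zero hf hk, ev_zero, hf.s]
  exact ⟨fun a => ⟨a.1.1, a.1.2, congrFun a.2⟩, fun a => ⟨⟨a.D, a.C⟩, funext a.S⟩⟩

variable {a : LB G c B (k + 2) × XB G c B k × Pz r → XB G c B k × Pz r}
  {dd : XB G c B k × Pz r → LB G c B (k + 2) →L[ℝ] XB G c B k} (g : Ga a dd) (w : Wp B G.F τ)
include g w

theorem TP.act_zero {v : SB I c B} {p : Pz r} (h0 : f (tH G k v, p) = 0) (η : LB G c B (k + 2)) :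
    f (a (η, tH G k v, p)) = 0 :=
  g.cl η v p (f ⁻¹' {0}) (isClosed_singleton.preimage hf.sm.continuous) fun v' _ e =>
    (h.zero_iff hf hk v' p).2 (h.zr w (h.a0 v p) (h.a0 v' p) e ((h.zero_iff hf hk v p).1 h0))

theorem TP.der_d {v : SB I c B} {p : Pz r} (h0 : f (tH G k v, p) = 0) (η : LB G c B (k + 2)) :
    fderiv ℝ f (tH G k v, p) (dB G k v η, 0) = 0 :=
  g.val v p ▸ inf_inv (hf.sm.differentiable (by simp) _).hasFDerivAt (g.der _) (g.zero _)
    (h.act_zero hf hk g w h0) η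

end Crest.Agent.X212.Top68
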