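import Crest.Agent.X212.Top68.Trm
import Crest.Agent.X212.Lad50.Ga
import Crest.Agent.X212.Tan54.Rot
import Crest.Agent.X212.Sep31.Sep

/-! The auxiliary model with one coordinate for every term; the point is isolated. -/

set_option autoImplicit false
set_option linter.unusedSectionVars false
noncomputable section
open scoped Manifold ContDiff Topology InnerProductSpace
open MeasureTheory Set Function Filter

namespace Crest.Agent.X212.Top68
open An An.Pre Sob92 Abel74 Map77 Eqv71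
open Eq82 (var vD vC Ed fz wz Rig SLim)
open Lad50.Tq (gnQ gaQ)
open Tan54 (rotQ)
open ContinuousLinearMap (fst snd inl inr proj)

variable {E : Type} [NormedAddCommGroup E] [NormedSpace ℝ E] [FiniteDimensional ℝ E]
  [MeasurableSpace E] [BorelSpace E]
  {HM : Type} [TopologicalSpace HM] {I : ModelWithCorners ℝ E HM} [I.Boundaryless]
  {M : Type} [TopologicalSpace M] [ChartedSpace HM M] [IsManifold I ∞ M]
  [MeasurableSpace M] [T2Space M] [BorelSpace M] [SecondCountableTopology M]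
  {ι : Type} [Fintype ι] {lam : Type} [Fintype lam] {r n k m J : ℕ}
  {B : Base M ι lam} {G : Geo I M ι lam} {F : Fr I M ι}

theorem fr_blk {X Y H P S : Type} [NormedAddCommGroup X] [NormedSpace ℝ X] [CompleteSpace X]
    [NormedAddCommGroup Y] [NormedSpace ℝ Y] [CompleteSpace Y] [NormedAddCommGroup H]
    [NormedSpace ℝ H] [CompleteSpace H] [NormedAddCommGroup P] [NormedSpace ℝ P]
    [FiniteDimensional ℝ P] [NormedAddCommGroup S] [NormedSpace ℝ S] [FiniteDimensional ℝ S]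
    {T : X × P →L[ℝ] Y × S} {σ : X →L[ℝ] H} {i : ℤ}
    (h : Fred93.Fr ((fst ℝ Y S ∘L T ∘L inl ℝ X P).prod σ) i) :
    (T.prod (σ ∘L fst ℝ X P)).IsFredholm := by
  have : CompleteSpace P := FiniteDimensional.complete ℝ P
  have : CompleteSpace S := FiniteDimensional.complete ℝ S
  refine (((((h.coprod (inl ℝ Y H ∘L fst ℝ Y S ∘L T ∘L inr ℝ X P)).prod (snd ℝ Y S ∘L T)).conj
    (.refl ℝ _) ((ContinuousLinearEquiv.prodAssoc ℝ Y H S).trans (((ContinuousLinearEquiv.refl ℝ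
      Y).prodCongr (.prodComm ℝ H S)).trans (ContinuousLinearEquiv.prodAssoc ℝ Y S H).symm)))).congr
      fun w => ?_).1
  have : T w = T (w.1, 0) + T (0, w.2) := by rw [← map_add]; simp
  refine Prod.ext (Prod.ext ?_ rfl) ?_
  · exact (congrArg Prod.fst this :)
  · exact (add_zero _).symm

theorem der_neg {W : Type} [NormedAddCommGroup W] [InnerProductSpace ℝ W] {φ : ℝ → W} {a y : W}
    (h : HasDerivAt φ a 0) (e : ∀ t, φ t = -(t • y)) : a = -y :=
  h.unique (funext e ▸ by simpa using ((hasDerivAt_id (0 : ℝ)).smul_const y).fun_neg)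

variable (B F) in
/-- one coordinate for every term, and the cuts -/
def t1 (τ : Pt M ι lam m J) (w : Fin m → LT M lam) (g : Fin J → Sg M lam) : Pt M ι lam m J :=
  (τ.add (wpt B F (fun b => (w b).tm J b) fun _ => 1)).add
    (wpt B F (fun i => .cut i 1 (g i)) fun _ => -1)

theorem ev_t1 (τ : Pt M ι lam m J) (w : Fin m → LT M lam) (g : Fin J → Sg M lam)
    (c : Cfg M ι lam m) (x : M) : ev B G (t1 B G.F τ w g) c x =
      ev B G τ c x - ∑ b, (w b).val B G.F c (c.z b) x := by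
  rw [t1, ev_add0 _ _ _ (by simp [wpt, Cfg.tD]) (by simp [wpt, Cfg.tC]), ev_tm τ w fun b => b]
  simp only [one_smul]

theorem val_congr (w : LT M lam) (a : ℂ) {m : Md M ι lam} {W W' : m.Cn} {Φ Φ' : M → m.V}
    {z z' : Pz r} (e : (⟨m, W, Φ, z⟩ : Cfg M ι lam r) = ⟨m, W', Φ', z'⟩) :
    w.val B F ⟨m, W, Φ, z⟩ a = w.val B F ⟨m, W', Φ', z'⟩ a := by cases e; rfl

theorem cut_S (g : Fin J → Sg M lam) (c : Cfg M ι lam r) (i : Fin J) :
    (wpt B F (fun i => .cut i 1 (g i)) fun _ => -1).S c i = -c.sg F (g i) := by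
  simp [wpt, Cfg.tS, Pi.single_apply]

variable (B G) in
/-- the hypotheses -/
structure TH (τ : ∀ r n, Pt M ι lam r n) (c : Cfg M ι lam 0) (ξ : M → c.m.A) (i : ℤ) : Prop
    extends TP B G c ξ where
  wp : ∀ r n, Wp B G.F (τ r n)
  ev : ∀ r n r' n' (m : Md M ι lam) W Φ (z : Pz r) (z' : Pz r'),
    ev B G (τ r n) ⟨m, W, Φ, z⟩ = ev B G (τ r' n') ⟨m, W, Φ, z'⟩
  S : ∀ r n c i, (τ r n).S c i = 0
  sol : c.Sol B G (τ 0 0)
  tr : TRig B G (τ 0 0) c ξ
  ix : Ix (bdm B c.m) G.F (base c.W c.Φ) i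

variable [CompactSpace M] {τ : ∀ r n, Pt M ι lam r n} {c : Cfg M ι lam 0} {ξ : M → c.m.A} {i : ℤ}
  (h : TH B G τ c ξ i) (w : Fin m → LT M lam) (g : Fin J → Sg M lam)
include h

theorem TH.t1_S (c : Cfg M ι lam m) (a : Fin J) :
    (t1 B G.F (τ m J) w g).S c a = -c.sg G.F (g a) := by
  simp only [t1, Pt.add, h.S, tm_S w fun b => b, cut_S, zero_add]

theorem TH.ev1 (v : M → Cf ι (Fin c.m.N)) (p : Pz m) (x : M) :
    Top68.ev B G (t1 B G.F (τ m J) w g) (cv c v p) x =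
      Top68.ev B G (τ 0 0) (cv c v 0) x - ∑ b, (w b).val B G.F (cv c v (0 : Pz 0)) (p b) x := by
  rw [ev_t1, h.ev m J 0 0 _ _ _ p 0]
  simp only [val_z _ _ p (0 : Pz 0)]

theorem TH.ev0 : Top68.ev B G (τ 0 0) (cv c 0 0) = 0 :=
  (ev_congr (cv_zero' (c := c))).trans (ev_zero.2 ⟨h.sol.D, h.sol.C⟩)

variable {w g} (hw : ∀ b, (w b).OK G.F) (hg : ∀ a, (g a).OK G.F)

include hw hg in
theorem TH.wp1 : Wp B G.F (t1 B G.F (τ m J) w g) :=
  .add (.add (h.wp m J) (.wpt _ _ fun b => (hw b).tm b)) (.wpt _ _ hg)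

variable (hk : 7 ≤ k)
include hk

theorem TH.rt0 : Rt B G c _ (τ 0 0) (mdl k B G c (τ 0 0)) := h.rt hk (gnQ h.toTP) (h.wp 0 0)

/-- finitely many scalars detect the kernel -/
theorem TH.fin : ∃ L : List (Sg M lam), (∀ s ∈ L, s.OK G.F) ∧ ∀ x : XB G c B k,
    (fderiv ℝ (mdl k B G c (τ 0 0)) 0 (x, 0)).1 = 0 → σB G c B k x = 0 →
    (∀ s ∈ L, lg k B G c s x = 0) → x = 0 := by
  obtain ⟨a, dd, ga⟩ := (gaQ h.toTP 0 k hk).ga
  obtain ⟨s, hs⟩ := fin_sep ((gnQ h.toTP 0 0 _ (h.wp 0 0)).fr h.hy h.cb hk (h.rt0 hk) (h.ix k) 0).1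
    (fun g : {g : Sg M lam // g.OK G.F} => lg k B G c g.1) fun x h1 h2 =>
      h.ker hk (gnQ h.toTP) (rotQ h.toTP) ga (h.rt0 hk) h.sol (Sep31.sep1 h.toTP)
        (Sep31.sep2 h.toTP) (h.wp 0 0) h.tr x (congrArg Prod.fst h1) (congrArg Prod.snd h1)
        fun g hg => h2 ⟨g, hg⟩
  refine ⟨s.toList.map (·.1), fun g hg => ?_, fun x h1 h2 h3 => hs x (Prod.ext h1 h2) fun g hg =>
    h3 _ (List.mem_map_of_mem (Finset.mem_toList.2 hg))⟩
  obtain ⟨g, -, rfl⟩ := List.mem_map.1 hg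
  exact g.2

variable {f : XB G c B k × Pz m → YB G c B k × (Fin J → ℂ)}
  (hf : Rt B G c _ (t1 B G.F (τ m J) w g) f)
include hf

include hg in
theorem TH.f_zero : f (tH G k 0, 0) = 0 := by
  refine Prod.ext ((h.fst_zero hf hk 0 0).2 (funext fun x => ?_))
    ((hf.s 0 0).trans (funext fun a => (h.t1_S w g _ a).trans ?_))
  · refine (h.ev1 w g 0 0 x).trans ?_
    simp [h.ev0, (LT.val_lin _ _ _).map_zero]
  · exact neg_eq_zero.2 (h.sg_zero (rotQ h.toTP) (hg a))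

theorem TH.der_fst (x : XB G c B k) :
    (fderiv ℝ f 0 (x, 0)).1 = (fderiv ℝ (mdl k B G c (τ 0 0)) 0 (x, 0)).1 := by
  have h0 := h.rt0 hk
  refine der_cmp (hf.sm.differentiable (by simp)) (h0.sm.differentiable (by simp))
    (inl ℝ _ _) (inl ℝ _ _) (fst ℝ _ _) (fst ℝ _ _) (congrFun ((G.F.dense_toH _ _).equalizer
      ((hf.sm.continuous.comp (inl ℝ _ _).continuous).fst)
      ((h0.sm.continuous.comp (inl ℝ _ _).continuous).fst) (funext fun v => ?_))) x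
  refine val_injective h.hy.sup (by omega) ((hf.e v 0).trans ((funext fun x => ?_).trans
    (h0.e v 0).symm))
  refine (h.ev1 w g _ 0 x).trans ?_
  simp [(LT.val_lin _ _ _).map_zero]

include hg in
theorem TH.der_snd (x : XB G c B k) (a : Fin J) :
    (fderiv ℝ f 0 (x, 0)).2 a = -lg k B G c (g a) x := by
  have h0 := h.rt hk (gnQ h.toTP) (wp_cutP (hg a))
  refine der_cmp (hf.sm.differentiable (by simp)) (h0.sm.differentiable (by simp))
    (inl ℝ _ _) (inl ℝ _ _) (proj a ∘L snd ℝ _ _) (-(proj 0 ∘L snd ℝ _ _))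
    (congrFun ((G.F.dense_toH _ _).equalizer
      ((continuous_apply a).comp (hf.sm.continuous.comp (inl ℝ _ _).continuous).snd)
      ((continuous_apply 0).comp (h0.sm.continuous.comp (inl ℝ _ _).continuous).snd).neg
      (funext fun v => ?_))) x
  exact (congrFun (hf.s v 0) a).trans ((h.t1_S w g _ a).trans (congrArg Neg.neg
    ((sg_z _ _ _ _ _).trans ((cutP_S _ _ _).symm.trans (congrFun (h0.s v 0) 0).symm))))

theorem TH.der_z (p : Pz m) : (∀ x, G.F.val _ _ (fderiv ℝ f 0 (0, p)).1 x =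
    -∑ b, (w b).val B G.F c (p b) x) ∧ (fderiv ℝ f 0 (0, p)).2 = 0 := by
  obtain ⟨h1, h2⟩ := hf.der 0 0 0 p
  have e : ∀ t : ℝ, (0 : SB I c B).1 + t • (0 : SB I c B).1 = 0 := fun t =>
    (zero_add _).trans (smul_zero _)
  have e0 := tH_zero (G := G) (k := k) (c := c) (B := B) (r := m)
  have e1 : G.F.toH (k + 1) (bdm B c.m).pC 0 = 0 := map_zero _
  rw [e0, e1] at h1 h2
  refine ⟨fun x => der_neg (h1 x) fun t => ?_, h2.unique ?_⟩
  · rw [e, h.ev1, h.ev0, Pi.zero_apply, zero_sub, Finset.smul_sum, zero_add]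
    refine congrArg _ (Finset.sum_congr rfl fun b _ => ?_)
    exact ((LT.val_lin _ _ _).map_smul t (p b)).trans 
      (congrArg _ (congrFun (val_congr (B := B) (F := G.F) (w b) (p b) (cv_zero' (c := c)) :) x))
  · refine (hasDerivAt_const (0 : ℝ) fun a => -(cv c 0 (0 : Pz 0)).sg G.F (g a)).congr_of_eventuallyEq
      (.of_forall fun t => funext fun a => (h.t1_S w g _ a).trans (congrArg Neg.neg ?_))
    rw [e]
    exact sg_z _ _ _ _ _

omit hf in
/-- **The point is isolated among the solutions with vanishing scalars.** -/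
theorem TH.iso {L : List (Sg M lam)} (h1 : ∀ s ∈ L, s.OK G.F) (h2 : ∀ x : XB G c B k,
    (fderiv ℝ (mdl k B G c (τ 0 0)) 0 (x, 0)).1 = 0 → σB G c B k x = 0 →
    (∀ s ∈ L, lg k B G c s x = 0) → x = 0) {α : Type} {l : Filter α} {c' : α → Cfg M ι lam 0}
    (s : ∀ᶠ a in l, (c' a).Sol B G (τ 0 0) ∧ ∀ s ∈ L, (c' a).sg G.F s = 0)
    (hs : SLim B l (fun _ => G) c' c) : ∀ᶠ a in l, Cfg.Iso B G.F (c' a) c := by
  obtain ⟨a, dd, ga⟩ := (gaQ h.toTP 0 k hk).ga
  have hg : ∀ a, (L.get a).OK G.F := fun a => h1 _ (L.get_mem a)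
  have wp := h.wp1 (w := Fin.elim0) (fun b => b.elim0) hg
  have hf := h.rt hk (gnQ h.toTP) wp
  have e0 := tH_zero (G := G) (k := k) (c := c) (B := B) (r := 0)
  have key := iso2 (hf.sm.differentiable (by simp) 0).hasFDerivAt (e0 ▸ h.f_zero hg hk hf)
    (σ := σB G c B k ∘L fst ℝ _ _) (ga.der 0) (ga.zero 0) (by rw [← e0, ga.val]; exact h.bij)
    (fr_blk ((gnQ h.toTP _ _ _ wp).fr h.hy h.cb hk hf (h.ix k) 0)) fun v a1 a2 => by
      obtain ⟨x, p⟩ := v
      obtain rfl : p = 0 := Subsingleton.elim _ _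
      refine Prod.ext (h2 x ((h.der_fst hk hf x).symm.trans (congrArg Prod.fst a1)) a2
        fun s hs => ?_) rfl
      obtain ⟨b, rfl⟩ := List.get_of_mem hs
      exact neg_eq_zero.1 ((h.der_snd hg hk hf x b).symm.trans (congrFun (congrArg Prod.snd a1) b))
  obtain ⟨v, z, b1, b2⟩ := h.slim (k := k) (s.mono fun a s => ad0 s.1.toAdm)
    ((funext fun a => cfg_ext rfl rfl (Subsingleton.elim _ _) : c' = fun a => fz (c' a)) ▸ hs)
  filter_upwards [s, b2, (b1.prodMk_nhds (tendsto_const_nhds (x := (0 : Pz 0)))).eventually key]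
    with b ⟨s1, s2⟩ ⟨_, b3⟩ ⟨η, b4⟩
  rw [Subsingleton.elim (z b) 0] at b3
  obtain ⟨u, ζ, e⟩ := b3
  have c0 := ev_zero.1 ((funext fun x => by simpa using ev_t1 (τ 0 _) Fin.elim0 L.get (c' b) x).trans
    ((h.ev 0 _ 0 0 _ _ _ _ _).trans (ev_zero.2 ⟨s1.D, s1.C⟩)))
  have c1 := (h.zero_iff hf hk _ _).2 (h.zr wp (ad0 s1.toAdm) (h.a0 _ _) e ⟨c0.1, c0.2, fun a =>
    (h.t1_S _ _ _ a).trans (neg_eq_zero.2 (s2 _ (L.get_mem a)))⟩)
  obtain ⟨u', e'⟩ := ga.eqv η (v b) 0 0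
    ((congrArg Prod.fst (b4 (h.act_zero hf hk ga wp c1 η))).trans (congrArg Prod.fst e0).symm)
  have := IsoOn.trans h.hB h.hG isOpen_univ (ad0 s1.toAdm) (h.a0 _ _) (h.a0 _ _) ⟨_, _, e⟩ ⟨_, _, e'⟩
  exact (cv_zero' (c := c)) ▸ this

end Crest.Agent.X212.Top68
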