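import Crest.Agent.X212.Top68.Gau

/-! The kernel of the linearisation at the reducible point and at the points of the link. -/

set_option autoImplicit false
set_option linter.unusedSectionVars false
noncomputable section
open scoped Manifold ContDiff Topology InnerProductSpace
open MeasureTheory Set Function Filter

namespace Crest.Agent.X212.Top68
open An An.Pre Sob92 Abel74 Map77 Eqv71
open Eq82 (var vD vC Ed fz wz Rig)

variable {E : Type} [NormedAddCommGroup E] [NormedSpace ℝ E] [FiniteDimensional ℝ E]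
  [MeasurableSpace E] [BorelSpace E]
  {HM : Type} [TopologicalSpace HM] {I : ModelWithCorners ℝ E HM} [I.Boundaryless]
  {M : Type} [TopologicalSpace M] [ChartedSpace HM M] [IsManifold I ∞ M]
  [MeasurableSpace M] [T2Space M] [BorelSpace M] [SecondCountableTopology M]
  {ι : Type} [Fintype ι] {lam : Type} [Fintype lam] {r n k : ℕ}
  {B : Base M ι lam} {G : Geo I M ι lam} {c : Cfg M ι lam 0} {ξ : M → c.m.A}

theorem ev_congr {τ : Pt M ι lam r n} {m : Md M ι lam} {W W' : m.Cn} {Φ Φ' : M → m.V} {z z' : Pz r}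
    (e : (⟨m, W, Φ, z⟩ : Cfg M ι lam r) = ⟨m, W', Φ', z'⟩) :
    ev B G τ ⟨m, W, Φ, z⟩ = ev B G τ ⟨m, W', Φ', z'⟩ := by cases e; rfl

theorem hasDerivAt_fm {α V : Type} [Fintype α] [NormedAddCommGroup V] [InnerProductSpace ℝ V]
    {f : ℝ → Fm α V} {y : Fm α V} (h : HasDerivAt f y 0) (a : α) :
    HasDerivAt (fun s => f s a) (y a) 0 :=
  (Grp76.pj V a).hasFDerivAt.comp_hasDerivAt _ h

variable (B G c k) in
/-- the model -/
def mdl (τ : Pt M ι lam r n) : XB G c B k × Pz r → YB G c B k × (Fin n → ℂ) :=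
  Classical.epsilon (Rt B G c _ τ)

variable (B) in
/-- one scalar -/
def cutP (F : Fr I M ι) (g : Sg M lam) : Pt M ι lam 0 1 :=
  wpt B F (fun _ : Unit => .cut 0 1 g) fun _ => 1

theorem cutP_S (F : Fr I M ι) (g : Sg M lam) (c : Cfg M ι lam 0) :
    (cutP B F g).S c 0 = c.sg F g := by simp [cutP, wpt, Cfg.tS]

theorem wp_cutP {F : Fr I M ι} {g : Sg M lam} (hg : g.OK F) : Wp B F (cutP B F g) :=
  .wpt _ _ fun _ => hg

variable (B G c k) in
/-- the derivative of a scalar -/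
def lg (g : Sg M lam) : XB G c B k →L[ℝ] ℂ :=
  (ContinuousLinearMap.proj 0 ∘L ContinuousLinearMap.snd ℝ _ _) ∘L
    fderiv ℝ (mdl k B G c (cutP B G.F g)) 0 ∘L ContinuousLinearMap.inl ℝ _ _

theorem lg_apply (g : Sg M lam) (x : XB G c B k) :
    lg k B G c g x = (fderiv ℝ (mdl k B G c (cutP B G.F g)) 0 (x, 0)).2 0 := rfl

theorem sm_pair {Y Z : Type} [NormedAddCommGroup Y] [InnerProductSpace ℝ Y] [NormedAddCommGroup Z]
    [InnerProductSpace ℝ Z] {α : M → Y} {φ : M → Z} (h1 : Sm I α) (h2 : Sm I φ) :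
    Sm I fun x => i1 Y Z (α x) + i2 Y Z (φ x) :=
  ((i1 Y Z).contMDiff.comp h1).add ((i2 Y Z).contMDiff.comp h2)

/-- a form and a spinor as one section -/
def mkS [CompactSpace M] {α : M → Fm ι c.m.A} {φ : M → c.m.V} (h1 : Sm I α)
    (h2 : ∀ x, c.m.p1 B x (α x) = α x) (h3 : Sm I φ) (h4 : ∀ x, c.m.pp B x (φ x) = φ x) :
    SB I c B :=
  ⟨fun x => i1 (Fm ι c.m.A) c.m.V (α x) + i2 (Fm ι c.m.A) c.m.V (φ x),
    sm_pair h1 h3, .of_compactSpace _, fun x => ext2 (by simp [h2]) (by simp [h4])⟩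

variable [CompactSpace M] (h : TP B G c ξ) (hk : 7 ≤ k)
include h hk

theorem TP.rt (gn : GnQ B G c) {τ : Pt M ι lam r n} (w : Wp B G.F τ) :
    Rt B G c _ τ (mdl k B G c τ) := Classical.epsilon_spec ((gn r n τ w).ex h.hy h.cb hk)

section der
variable {τ : Pt M ι lam r n} {f : XB G c B k × Pz r → YB G c B k × (Fin n → ℂ)}
  (hf : Rt B G c _ τ f)
include hf

/-- the dictionary for derivatives -/
theorem TP.der_iff (v v' : SB I c B) (p w : Pz r) {W : c.m.Cn} {Φ : M → c.m.V} {z : Pz r}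
    (hW : W = (cv c v.1 p).W) (hΦ : Φ = (cv c v.1 p).Φ) (hz : z = p) {α : M → Fm ι c.m.A}
    {φ : M → c.m.V} (hα : ∀ x, fa (v'.1 x) = α x) (hφ : ∀ x, fp (v'.1 x) = φ x) :
    ((fderiv ℝ f (tH G k v, p) (tH G k v', w)).1 = 0 ↔
      (∀ x, HasDerivAt (vD G τ ⟨c.m, W, Φ, z⟩ α φ w x) 0 0) ∧
        ∀ x a, HasDerivAt (vC B G τ ⟨c.m, W, Φ, z⟩ α φ w x a) 0 0) ∧
    ∀ i, HasDerivAt (fun s => τ.S (var ⟨c.m, W, Φ, z⟩ α φ w s) i)
      ((fderiv ℝ f (tH G k v, p) (tH G k v', w)).2 i) 0 := by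
  obtain rfl := funext hα
  obtain rfl := funext hφ
  subst hW hΦ hz
  obtain ⟨h1, h2⟩ := hf.der v v' z w
  have e : ∀ s x, ev B G τ (var (cv c v.1 z) (fun x => fa (v'.1 x)) (fun x => fp (v'.1 x)) w s) x =
      ev B G τ (cv c (v.1 + s • v'.1) (z + s • w)) x :=
    fun s => congrFun (ev_congr (var_cv v.1 v'.1 z w s))
  set y := G.F.val _ _ (fderiv ℝ f (tH G k v, z) (tH G k v', w)).1 with hy
  have a1 : ∀ x, HasDerivAt (vD G τ (cv c v.1 z) (fun x => fa (v'.1 x)) (fun x => fp (v'.1 x)) w x)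
      (f2 c.m.V _ (y x)) 0 := fun x =>
    ((f2 c.m.V (Fm (ι × ι) c.m.A)).hasFDerivAt.comp_hasDerivAt _ (h1 x)).congr_of_eventuallyEq (.of_forall fun s =>
      (f2_ev (B := B) τ _ x).symm.trans (congrArg (f2 c.m.V (Fm (ι × ι) c.m.A)) (e s x)))
  have a2 : ∀ x a, HasDerivAt (vC B G τ (cv c v.1 z) (fun x => fa (v'.1 x))
      (fun x => fp (v'.1 x)) w x a) (s2 c.m.V _ (y x) a) 0 := fun x a =>
    (hasDerivAt_fm ((s2 c.m.V (Fm (ι × ι) c.m.A)).hasFDerivAt.comp_hasDerivAt _ (h1 x)) a).congr_of_eventuallyEq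
      (.of_forall fun s => congrArg (· a)
        ((s2_ev τ _ x).symm.trans (congrArg (s2 c.m.V (Fm (ι × ι) c.m.A)) (e s x))))
  refine ⟨⟨fun h0 => ?_, fun h0 => val_injective h.hy.sup (by omega) (funext fun x => ?_)⟩,
    fun i => ?_⟩
  · rw [hy, h0, val_zero] at a1 a2
    exact ⟨fun x => by simpa using a1 x, fun x a => by simpa using a2 x a⟩
  · rw [val_zero]
    exact ext2 ((a1 x).unique (h0.1 x)) (fm_ext fun a => (a2 x a).unique (h0.2 x a))
  · simpa only [var_cv] using hasDerivAt_pi.1 h2 i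

variable {a : LB G c B (k + 2) × XB G c B k × Pz r → XB G c B k × Pz r}
  {dd : XB G c B k × Pz r → LB G c B (k + 2) →L[ℝ] XB G c B k} (g : Ga a dd) (w : Wp B G.F τ)
include g w

/-- rigidity at a point of the link -/
theorem TP.rig {v : SB I c B} {p z0 : Pz r} (h0 : f (tH G k v, p) = 0)
    (hb : Bijective ((σB G c B k).comp (dB G k v))) (hp : 0 < (⟪z0, p⟫_ℂ).re)
    (H : ∀ y, fderiv ℝ f (tH G k v, p) y = 0 → σB G c B k y.1 = 0 → (⟪p, y.2⟫_ℂ).re = 0 →
      (⟪z0, y.2⟫_ℂ).im = 0 → y = 0) : Rig B G τ (cv c v.1 p) := by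
  intro α φ q s1 p1 s2 p2 hq e1 e2 e3
  have a0 := h.a0 v p
  have z1 : ∀ x, c.m.p1 B x ((0 : M → Fm ι c.m.A) x) = (0 : M → Fm ι c.m.A) x := fun x => map_zero _
  let A : SB I c B := mkS contMDiff_const z1 a0.sm a0.pos
  let y : SB I c B := mkS contMDiff_const z1 (c.m.J.contMDiff.comp a0.sm) fun x =>
    (ap (Wz78.J_pp a0.ok x) _).symm.trans (congrArg c.m.J (a0.pos x))
  let v' : SB I c B := mkS s1 p1 s2 p2
  obtain ⟨b1, b2⟩ := h.der_iff hk hf v v' p q rfl rfl rfl (α := α) (φ := φ)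
    (fun x => by simp [v', mkS]) fun x => by simp [v', mkS]
  have c1 : ∀ s : ℝ, f (tH G k v + (Real.cos s - 1) • tH G k A + Real.sin s • tH G k y,
      Complex.exp (2 * Complex.I * s) • p) = 0 := fun s => by
    have e : Complex.exp (2 * Complex.I * s) = (Circle.exp s : ℂ) ^ 2 := by
      rw [Circle.coe_exp, ← Complex.exp_nat_mul]; congr 1; push_cast; ring
    rw [tH, tH, tH, ← map_smul, ← map_smul, ← map_add, ← map_add, e]
    refine (h.zero_iff hf hk _ _).2 (h.zr w a0 (h.a0 _ _) (u := c.m.p) (ζ := Circle.exp s) ?_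
      ((h.zero_iff hf hk v p).1 h0))
    have e0 := ceq_refl h.hB h.hG a0 isOpen_univ
    have e4 : (cv c (v + (Real.cos s - 1) • A + Real.sin s • y).1
        (((Circle.exp s : ℂ) ^ 2) • p)).W = (cv c v.1 p).W :=
      funext₂ fun b x => by simp [Md.addC, A, y, mkS]
    refine ⟨e0.m, e4 ▸ e0.W, fun x _ => ?_, rfl⟩
    rw [p_Φ a0]
    simp only [A, y, mkS, cs, Submodule.coe_add, Submodule.coe_smul, Pi.add_apply, Pi.smul_apply,
      map_add, map_smul, s2_i1, s2_i2, zero_add, id, Circle.coe_exp, Complex.exp_ofReal_mul_I_re,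
      Complex.exp_ofReal_mul_I_im, comp_apply]
    module
  have c2 : HasDerivAt (fun s : ℝ => (tH G k v + (Real.cos s - 1) • tH G k A +
      Real.sin s • tH G k y, Complex.exp (2 * Complex.I * s) • p))
      (tH G k y, (2 * Complex.I) • p) 0 := by
    refine HasDerivAt.prodMk ?_ ?_
    · simpa using ((((Real.hasDerivAt_cos 0).sub_const 1).smul_const (tH G k A)).const_add
        (tH G k v)).fun_add ((Real.hasDerivAt_sin 0).smul_const (tH G k y))
    · simpa using ((Complex.ofRealCLM.hasDerivAt (x := 0)).const_mul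
        (2 * Complex.I)).cexp.smul_const p
  have c3 := HasFDerivAt.comp_hasDerivAt_of_eq (0 : ℝ)
    (hf.sm.differentiable (by simp) (tH G k v, p)).hasFDerivAt c2 (by simp)
  rw [show (f ∘ _) = fun _ => 0 from funext c1] at c3
  obtain ⟨η, θ, d1, d2⟩ := rig2 hb (h.der_d hf hk g w h0) (c3.unique (hasDerivAt_const _ _)) hp H
    (v := (tH G k v', q)) (Prod.ext (b1.2 ⟨e1, e2⟩) (funext fun i => (b2 i).unique (e3 i))) hq
  have d3 : dB G k v η = tH G k (v' - θ • y) := by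
    rw [tH, map_sub, map_smul]; exact eq_sub_of_add_eq d1.symm
  obtain ⟨η, rfl⟩ := h.dB_reg v d3
  obtain ⟨y', d4, d5, d6⟩ := h.dB_toH (k := k) v p η
  obtain rfl : y' = v' - θ • y := Ell97.toH_inj _ _ _ (d4.symm.trans d3)
  refine ⟨η.1, θ, η.2.1, fun x => η.2.2.2 x ▸ Wz78.pg_mem x _, fun x b => ?_, fun x => ?_, d2⟩
  · simpa [v', y, mkS] using d5 x b
  · rw [← d6 x]
    simp [v', y, mkS]

end der

omit hk in
theorem TP.sg_zero (ro : RotQ B G c ξ) {g : Sg M lam} (hg : g.OK G.F) :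
    (cv c 0 (0 : Pz r)).sg G.F g = 0 := by
  have e := ro.eq r (Circle.exp (Real.pi / 2)) 0 0
  have e1 : (fun x => br B c ξ (Circle.exp (Real.pi / 2)) x ((0 : SB I c B).1 x)) = 0 :=
    funext fun x => map_zero _
  rw [e1, smul_zero] at e
  have e2 := h.sg (h.a0 0 0) (h.a0 0 0) e hg
  have e3 : ((Circle.exp (Real.pi / 2) : Circle) : ℂ) ^ 2 = -1 := by
    rw [Circle.coe_exp]; push_cast; rw [Complex.exp_pi_div_two_mul_I, Complex.I_sq]
  rw [e3, neg_one_mul] at e2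
  exact self_eq_neg.1 e2

variable (gn : GnQ B G c) (ro : RotQ B G c ξ)
  {a : LB G c B (k + 2) × XB G c B k × Pz 0 → XB G c B k × Pz 0}
  {dd : XB G c B k × Pz 0 → LB G c B (k + 2) →L[ℝ] XB G c B k} (ga : Ga a dd)
include gn

include ro ga in
theorem TP.lg_d {g : Sg M lam} (hg : g.OK G.F) (η : LB G c B (k + 2)) :
    lg k B G c g (dB G k 0 η) = 0 := by
  have hf := h.rt hk gn (wp_cutP hg)
  let π : YB G c B k × (Fin 1 → ℂ) →L[ℝ] ℂ :=
    ContinuousLinearMap.proj 0 ∘L ContinuousLinearMap.snd ℝ _ _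
  have := inf_inv (π.hasFDerivAt.comp _ (hf.sm.differentiable (by simp) (tH G k 0, 0)).hasFDerivAt)
    (ga.der _) (ga.zero _) (fun η => ga.cl η 0 0 ((π ∘ mdl k B G c _) ⁻¹' {0})
      (isClosed_singleton.preimage (π.continuous.comp hf.sm.continuous)) fun v u e =>
      (congrFun (hf.s v 0) 0).trans ((cutP_S _ _ _).trans ((h.sg (h.a0 0 0) (h.a0 v 0) e hg).trans
        (mul_eq_zero_of_right _ (h.sg_zero ro hg))))) η
  rw [ga.val, tH_zero] at this
  exact this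

theorem TP.stat {v : SB I c B} (hv : ∀ g : Sg M lam, g.OK G.F → lg k B G c g (tH G k v) = 0) :
    Stat B G c (fun x => fa (v.1 x)) fun x => fp (v.1 x) := by
  refine ⟨fa.contMDiff.comp v.2.1, fun x => maps_f2 x _ (v.2.2.2 x), fp.contMDiff.comp v.2.1,
    fun x => maps_s2 x _ (v.2.2.2 x), fun g hg => ?_⟩
  have := (h.der_iff hk (h.rt hk gn (wp_cutP hg)) 0 v 0 0 (W := c.W) (Φ := c.Φ) (z := c.z)
    (funext₂ fun a x => by simp [Md.addC]) (funext fun x => by simp) (Subsingleton.elim _ _)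
    (fun _ => rfl) fun _ => rfl).2 0
  rw [tH_zero, ← lg_apply, hv g hg] at this
  simpa only [cutP_S] using this

variable {τ : Pt M ι lam 0 0} {f : XB G c B k × Pz 0 → YB G c B k × (Fin 0 → ℂ)}
  (hf : Rt B G c _ τ f) (s : c.Sol B G τ)
include hf s

omit gn in
theorem TP.f0 : f (tH G k 0, 0) = 0 :=
  (h.zero_iff hf hk 0 0).2 ((cv_zero' (c := c)).symm ▸ ⟨s.D, s.C, s.S⟩ : Zr B G τ (cv c 0 0))

include ro ga in
/-- **The kernel at the reducible point is detected by the scalars.** -/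
theorem TP.ker (s1 : Sep1 B G c ξ) (s2 : Sep2 B G c ξ) (w : Wp B G.F τ) (tr : TRig B G τ c ξ)
    (x : XB G c B k) (h1 : (fderiv ℝ f 0 (x, 0)).1 = 0) (h2 : σB G c B k x = 0)
    (h3 : ∀ g : Sg M lam, g.OK G.F → lg k B G c g x = 0) : x = 0 := by
  have d0 : ∀ η, fderiv ℝ f 0 (dB G k 0 η, 0) = 0 := fun η =>
    tH_zero (G := G) (k := k) (c := c) (B := B) (r := 0) ▸ h.der_d hf hk ga w (h.f0 hk hf s) η
  obtain ⟨v, rfl⟩ := (gn 0 0 τ w).reg' h.hy h.cb hk hf 0 0 0 0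
    (x := x) (by rw [map_zero]; exact tH_zero (G := G) (k := k) (c := c) (r := 0) ▸ h1) h2
  obtain ⟨η, a1, a2, a3⟩ := s1 _ _ (h.stat hk gn h3)
  let η1 : Sec I (bdm B c.m).g := ⟨η, a1, .of_compactSpace _, fun x => Wz78.pg_of_mem (a2 x)⟩
  obtain ⟨y, b1, -, b3⟩ := h.dB_toH (k := k) 0 (0 : Pz 0) η1
  have e : tH G k (v - y) = tH G k v - dB G k 0 (G.F.toH _ _ η1) := by rw [b1, tH, map_sub]
  have st := h.stat hk gn (v := v - y) fun g hg => by
    rw [e, map_sub, h3 g hg, h.lg_d hk gn ro ga hg, sub_zero]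
  have c1 : ∀ x, Abel74.hf c.m x (ξ x) (fp ((v - y).1 x)) = fp ((v - y).1 x) := fun x => by
    have : fp ((v - y).1 x) = Abel74.hf c.m x (ξ x) (fp (v.1 x)) := by
      have e1 : fp (y.1 x) = hg c.m x (ξ x) (fp (v.1 x)) := by
        rw [b3, ← a3]; simp [η1]
      rw [Submodule.coe_sub, Pi.sub_apply, map_sub, e1, SP.hg_apply,
        (h.pt x).p_of_pp (maps_s2 x _ (v.2.2.2 x)), sub_sub_cancel]
    rw [this, (h.pt x).hf_hf]
  let t : ι → M → ℝ := fun b x => ⟪ξ x, fa ((v - y).1 x) b⟫_ℝ / 16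
  have c2 : ∀ x, fa ((v - y).1 x) = tf t ξ x := fun x => fm_ext fun b =>
    (s2 _ _ st c1 x b).symm.trans (gt_apply _ _)
  have c3 := ((h.der_iff hk hf 0 (v - y) 0 0 (W := c.W) (Φ := c.Φ) (z := c.z)
    (funext₂ fun a x => by simp [Md.addC]) (funext fun x => by simp) (Subsingleton.elim _ _) c2
    fun _ => rfl).1).1 (by
      rw [tH_zero, e, show (tH G k v - dB G k 0 (G.F.toH _ _ η1), (0 : Pz 0)) = (tH G k v, 0) -
        (dB G k 0 (G.F.toH _ _ η1), 0) by simp, map_sub, d0, sub_zero]; exact h1)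
  obtain ⟨g, g1, g2, g3⟩ := tr t _ (fun b => (contDiff_id.div_const (16 : ℝ)).contMDiff.comp
      (Std94.Kl.inner (K := Std94.smAll I) h.sp.sm ((Grp76.pj _ b).contMDiff.comp st.sα)))
    (fun b x => by
      simp only [t, ← (p1_sum (st.pα x) b).2, inner_sum, real_inner_smul_right, Finset.sum_div,
        mul_div_assoc])
    st.sφ st.pφ (fun x => xi_of_hf h.ad.ok (h.sp.mem x) (h.sp.sq x) (c1 x)) c3.1 c3.2
  let η2 : Sec I (bdm B c.m).g := ⟨fun x => g x • ξ x, g1.smul h.sp.sm, .of_compactSpace _,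
    fun x => Wz78.pg_of_mem (Submodule.smul_mem _ _ (h.sp.mem x))⟩
  obtain ⟨y', d1, d2, d3⟩ := h.dB_toH (k := k) 0 (0 : Pz 0) η2
  have e2 : (cv c (0 : SB I c B).1 (0 : Pz 0)).W = c.W := funext₂ fun a x => by simp [Md.addC]
  obtain rfl : y' = v - y := Subtype.ext (funext fun x => ext2 (fm_ext fun b => by
      refine (d2 x b).trans ?_
      rw [e2, Wz78.nab_smul b (g1 x) (h.sp.sm x), h.sp.par, smul_zero, add_zero]
      exact (neg_smul _ _).symm.trans (((congrArg (· b) (c2 x)).trans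
        (congrArg (· • ξ x) (g2 b x))).symm))
    ((d3 x).trans (by simpa [η2, h.sp.Φ] using (g3 x).symm)))
  have e3 : tH G k v = dB G k 0 (G.F.toH _ _ η2 + G.F.toH _ _ η1) := by
    rw [map_add, d1, e, sub_add_cancel]
  rw [show G.F.toH _ _ v = _ from e3] at h2 ⊢
  rw [(injective_iff_map_eq_zero _).1 h.bij.1 _ h2, map_zero]

end Crest.Agent.X212.Top68
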