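import Crest.Agent.X212.Fred93.Basic

/-! Linear algebra at the reducible point: one can choose the coefficients of the antilinear terms
so that the linearisation is onto with kernel a complex line that is transverse to `P = 0`.
No splitting into tangential and normal parts: only the action `R` of one element of order four. -/

set_option autoImplicit false
set_option linter.unusedSectionVars false

noncomputable section

open Set Function Module
open scoped InnerProductSpace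

namespace Crest.Agent.X212.Top68

open Fred93 (Fr)

variable {X Y S P A : Type*} [NormedAddCommGroup X] [NormedSpace ℝ X] [CompleteSpace X]
  [NormedAddCommGroup Y] [NormedSpace ℝ Y] [CompleteSpace Y]
  [NormedAddCommGroup S] [NormedSpace ℂ S] [FiniteDimensional ℂ S]
  [NormedAddCommGroup P] [InnerProductSpace ℂ P] [FiniteDimensional ℂ P]
  [NormedAddCommGroup A] [NormedSpace ℂ A] [FiniteDimensional ℂ A]

/-- a real subspace that is stable under `i` -/
def cx {V : Type*} [AddCommGroup V] [Module ℂ V] (K : Submodule ℝ V)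
    (h : ∀ v ∈ K, Complex.I • v ∈ K) : Submodule ℂ V where
  carrier := K
  add_mem' := K.add_mem
  zero_mem' := K.zero_mem
  smul_mem' c v hv := by
    have : c • v = c.re • v + c.im • (Complex.I • v) := by
      conv_lhs => rw [← Complex.re_add_im c]
      rw [add_smul, mul_smul, Complex.coe_smul, Complex.coe_smul]
    rw [SetLike.mem_coe, this]
    exact K.add_mem (K.smul_mem _ hv) (K.smul_mem _ (h v hv))

theorem finrank_cx {V : Type*} [AddCommGroup V] [Module ℂ V] (K : Submodule ℝ V)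
    (h : ∀ v ∈ K, Complex.I • v ∈ K) : finrank ℝ K = 2 * finrank ℂ (cx K h) := by
  rw [← finrank_real_of_complex]
  rfl

theorem finrank_map {V V' : Type*} [AddCommGroup V] [Module ℝ V] [AddCommGroup V'] [Module ℝ V']
    (K : Submodule ℝ V) (f : V →ₗ[ℝ] V') (h : ∀ x ∈ K, f x = 0 → x = 0) :
    finrank ℝ (K.map f) = finrank ℝ K := by
  have : K.map f = (f.comp K.subtype).range := by rw [LinearMap.range_comp, Submodule.range_subtype]
  rw [this, LinearMap.finrank_range_of_inj]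
  rw [injective_iff_map_eq_zero]
  exact fun x hx => Subtype.ext (h x x.2 hx)

/-- the linearisation at the reducible point -/
def lin (D : X →L[ℝ] Y) (ds : X →L[ℝ] S) (Θ : P →L[ℝ] Y) (res : P →L[ℂ] S) :
    X × P →L[ℝ] Y × S :=
  (D.coprod Θ).prod ((-ds).coprod (res.restrictScalars ℝ))

theorem lin_apply (D : X →L[ℝ] Y) (ds : X →L[ℝ] S) (Θ : P →L[ℝ] Y) (res : P →L[ℂ] S)
    (w : X × P) : lin D ds Θ res w = (D w.1 + Θ w.2, res w.2 - ds w.1) := by
  simp [lin, neg_add_eq_sub]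

/-- choice of the coefficients -/
theorem exists_onto {D : X →L[ℝ] Y} {ds : X →L[ℝ] S} {Θ : A →L[ℝ] Y} {res : P →L[ℂ] S} {j : ℕ}
    (hD : Fr D (-(2 * j))) (hres : Surjective res) (hP : finrank ℂ P = j + 1 + finrank ℂ S)
    (hk : ∀ x, D x = 0 → ds x = 0 → x = 0) (hc : ∀ y, ∃ x a, D x + Θ a = y)
    (hR : ∀ x, D x = 0 → ∃ x', D x' = 0 ∧ ds x' = Complex.I • ds x)
    (hR' : ∀ x a, D x = Θ a → ∃ x', D x' = Θ (Complex.I • a)) :
    ∃ M : P →L[ℂ] A, Surjective (lin D ds (Θ.comp (M.restrictScalars ℝ)) res) := by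
  have hK : ∀ v ∈ D.ker.map (ds : X →ₗ[ℝ] S), Complex.I • v ∈ D.ker.map (ds : X →ₗ[ℝ] S) := by
    rintro _ ⟨x, hx, rfl⟩
    obtain ⟨x', h1, h2⟩ := hR x hx
    exact ⟨x', h1, h2⟩
  have hZ : ∀ a ∈ D.range.comap (Θ : A →ₗ[ℝ] Y),
      Complex.I • a ∈ D.range.comap (Θ : A →ₗ[ℝ] Y) := by
    rintro a ⟨x, hx⟩
    exact hR' x a hx
  set K := cx _ hK with hKd
  set Z := cx _ hZ with hZd
  obtain ⟨Q, hQ⟩ := Z.exists_isCompl
  have := hD.1.finite_ker
  have e1 : finrank ℝ D.ker = 2 * finrank ℂ K := by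
    rw [← finrank_cx, finrank_map _ _ hk]
  have e2 : finrank ℝ (Y ⧸ D.range) = 2 * finrank ℂ Q := by
    have h1 := LinearMap.finrank_range_add_finrank_ker (D.range.mkQ.comp (Θ : A →ₗ[ℝ] Y))
    have h2 : (D.range.mkQ.comp (Θ : A →ₗ[ℝ] Y)).range = ⊤ := by
      rw [eq_top_iff]
      intro q _
      obtain ⟨y, rfl⟩ := D.range.mkQ_surjective q
      obtain ⟨x, a, rfl⟩ := hc y
      refine ⟨a, ?_⟩
      rw [map_add, (Submodule.Quotient.mk_eq_zero _).2 (⟨x, rfl⟩ : D x ∈ D.range) |>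
        (fun h => show D.range.mkQ (D x) = 0 from h), zero_add]
      rfl
    rw [h2, finrank_top, LinearMap.ker_comp, Submodule.ker_mkQ, finrank_cx _ hZ,
      finrank_real_of_complex] at h1
    have h3 := Submodule.finrank_add_eq_of_isCompl hQ
    rw [← hZd] at h1
    omega
  have e3 : finrank ℂ Q = finrank ℂ K + j := by
    have h := hD.2
    rw [Fred93.ind, LinearMap.index_eq_finrank_sub] at h
    have h' : (finrank ℝ D.ker : ℤ) - finrank ℝ (Y ⧸ D.range) = -(2 * j) := h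
    omega
  let P' := K.comap (res : P →ₗ[ℂ] S)
  have e4 : finrank ℂ Q ≤ finrank ℂ P' := by
    have h1 := LinearMap.finrank_range_add_finrank_ker (K.mkQ.comp (res : P →ₗ[ℂ] S))
    have h2 := (K.mkQ.comp (res : P →ₗ[ℂ] S)).range.finrank_le
    have h3 := K.finrank_quotient_add_finrank
    rw [LinearMap.ker_comp, Submodule.ker_mkQ] at h1
    change _ + finrank ℂ P' = _ at h1
    omega
  obtain ⟨ψ, hψ⟩ := finrank_le_iff_exists_linearMap.1 e4
  obtain ⟨φ, hφ⟩ := ψ.exists_leftInverse_of_injective (LinearMap.ker_eq_bot.2 hψ)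
  obtain ⟨M, hM⟩ := φ.exists_extend
  refine ⟨LinearMap.toContinuousLinearMap (Q.subtype.comp M), ?_⟩
  rintro ⟨y, c⟩
  obtain ⟨x0, a, rfl⟩ := hc y
  have ha : a ∈ Z ⊔ Q := hQ.sup_eq_top ▸ Submodule.mem_top
  obtain ⟨z, ⟨x1, hx1⟩, q, hq, rfl⟩ := Submodule.mem_sup.1 ha
  obtain ⟨P0, hP0⟩ := hres (c + ds (x0 + x1))
  have hmem : ∀ u : P', res (u : P) ∈ D.ker.map (ds : X →ₗ[ℝ] S) := fun u => u.2
  obtain ⟨k, hk1, hk2⟩ := hmem (ψ (⟨q, hq⟩ - M P0))
  have h5 : M (ψ (⟨q, hq⟩ - M P0) : P) = ⟨q, hq⟩ - M P0 := by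
    have a1 := congrArg (fun f => f (ψ (⟨q, hq⟩ - M P0))) hM
    have a2 := congrArg (fun f => f (⟨q, hq⟩ - M P0)) hφ
    exact Eq.trans a1 a2
  refine ⟨(x0 + x1 + k, P0 + ψ (⟨q, hq⟩ - M P0)), ?_⟩
  have hk1' : D k = 0 := hk1
  have hk2' : ds k = res (ψ (⟨q, hq⟩ - M P0) : P) := hk2
  have hx1' : D x1 = Θ z := hx1
  rw [lin_apply]
  refine Prod.ext ?_ ?_
  · show D (x0 + x1 + k) + Θ (M (P0 + ψ (⟨q, hq⟩ - M P0)) : A) = _
    rw [map_add M, h5, add_sub_cancel, map_add, map_add, hk1', hx1', map_add, add_zero, add_assoc]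
  · show res (P0 + ψ (⟨q, hq⟩ - M P0)) - ds (x0 + x1 + k) = c
    rw [map_add, map_add ds _ k, hk2', hP0]
    abel

/-- an onto map of index two whose kernel is stable under `i` and meets `P = 0` trivially: the
kernel is a complex line -/
theorem line_of_onto {T : X × P →L[ℝ] Y} (hT : Fr T 2) (hs : Surjective T)
    (hk : ∀ x, T (x, 0) = 0 → x = 0) (hR : ∀ x p, T (x, p) = 0 → ∃ x', T (x', Complex.I • p) = 0) :
    ∃ z0 : P, ‖z0‖ = 1 ∧ (∀ w, T w = 0 → ⟪z0, w.2⟫_ℂ = 0 → w = 0) ∧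
      ∀ c : ℂ, ∃ y, T (y, c • z0) = 0 := by
  have hK : ∀ v ∈ T.ker.map (LinearMap.snd ℝ X P), Complex.I • v ∈ T.ker.map (LinearMap.snd ℝ X P) := by
    rintro _ ⟨w, hw, rfl⟩
    obtain ⟨x', h⟩ := hR w.1 w.2 hw
    exact ⟨(x', Complex.I • w.2), h, rfl⟩
  have hinj : ∀ w, T w = 0 → w.2 = 0 → w = 0 := fun w h1 h2 => by
    obtain ⟨x, p⟩ := w
    obtain rfl : p = 0 := h2
    rw [hk x h1]
    rfl
  have e1 : finrank ℝ T.ker = 2 * finrank ℂ (cx _ hK) := by
    rw [← finrank_cx, finrank_map _ _ hinj]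
  have e2 := hT.finrank_ker hs
  have e3 : finrank ℂ (cx _ hK) = 1 := by omega
  obtain ⟨v, hv, hall⟩ := finrank_eq_one_iff'.1 e3
  have hv' : ‖(v : P)‖ ≠ 0 := fun h => hv (Subtype.ext (norm_eq_zero.1 h))
  refine ⟨((‖(v : P)‖⁻¹ : ℝ) : ℂ) • (v : P), by simp [norm_smul, hv'], fun w h1 h2 => ?_, fun c => ?_⟩
  · obtain ⟨c, hc⟩ := hall ⟨w.2, w, h1, rfl⟩
    have hc' : c • (v : P) = w.2 := congrArg Subtype.val hc
    rw [← hc', inner_smul_left, inner_smul_right, inner_self_eq_norm_sq_to_K] at h2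
    have : c = 0 := by simpa [hv'] using h2
    exact hinj w h1 (by rw [← hc', this, zero_smul])
  · obtain ⟨w, h1, h2⟩ := ((cx _ hK).smul_mem c ((cx _ hK).smul_mem ((‖(v : P)‖⁻¹ : ℝ) : ℂ) v.2))
    exact ⟨w.1, by rw [← h2]; exact h1⟩

theorem fr_lin {D : X →L[ℝ] Y} (ds : X →L[ℝ] S) (Θ : P →L[ℝ] Y) (res : P →L[ℂ] S) {j : ℕ}
    (hD : Fr D (-(2 * j))) (hP : finrank ℂ P = j + 1 + finrank ℂ S) : Fr (lin D ds Θ res) 2 := by
  have : CompleteSpace P := FiniteDimensional.complete ℂ P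
  refine ((hD.coprod Θ).prod _).cast ?_
  rw [finrank_real_of_complex, finrank_real_of_complex, hP]
  push_cast
  ring

/-- **The linear statement.** -/
theorem exists_line {D : X →L[ℝ] Y} {ds : X →L[ℝ] S} {Θ : A →L[ℝ] Y} {res : P →L[ℂ] S} {j : ℕ}
    (hD : Fr D (-(2 * j))) (hres : Surjective res) (hP : finrank ℂ P = j + 1 + finrank ℂ S)
    (hk : ∀ x, D x = 0 → ds x = 0 → x = 0) (hc : ∀ y, ∃ x a, D x + Θ a = y)
    (hR : ∀ x a, D x + Θ a = 0 →
      ∃ x', D x' + Θ (Complex.I • a) = 0 ∧ ds x' = Complex.I • ds x) :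
    ∃ (M : P →L[ℂ] A) (z0 : P), ‖z0‖ = 1 ∧
      Surjective (lin D ds (Θ.comp (M.restrictScalars ℝ)) res) ∧
      (∀ w, lin D ds (Θ.comp (M.restrictScalars ℝ)) res w = 0 → ⟪z0, w.2⟫_ℂ = 0 → w = 0) ∧
      ∀ c : ℂ, ∃ y, lin D ds (Θ.comp (M.restrictScalars ℝ)) res (y, c • z0) = 0 := by
  have : CompleteSpace S := FiniteDimensional.complete ℂ S
  obtain ⟨M, hM⟩ := exists_onto hD hres hP hk hc
    (fun x hx => by simpa using hR x 0 (by simpa using hx))
    (fun x a h => by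
      obtain ⟨x', h1, -⟩ := hR (-x) a (by rw [map_neg, h, neg_add_cancel])
      exact ⟨-x', by rw [map_neg, neg_eq_iff_add_eq_zero, h1]⟩)
  obtain ⟨z0, h1, h2, h3⟩ := line_of_onto (fr_lin ds _ res hD hP) hM
    (fun x h => by
      rw [lin_apply, Prod.mk_eq_zero] at h
      exact hk x (by simpa using h.1) (by simpa using h.2))
    (fun x p h => by
      rw [lin_apply, Prod.mk_eq_zero] at h
      obtain ⟨x', a, b⟩ := hR x (M p) h.1
      refine ⟨x', ?_⟩
      rw [lin_apply, Prod.mk_eq_zero]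
      refine ⟨?_, ?_⟩
      · show D x' + Θ (M (Complex.I • p)) = 0
        rw [map_smul, a]
      · show res (Complex.I • p) - ds x' = 0
        rw [map_smul, b, ← smul_sub, show res p - ds x = 0 from h.2, smul_zero])
  exact ⟨M, z0, h1, hM, h2, h3⟩

/-- finitely many members of a family span the cokernel -/
theorem exists_finite {D : X →L[ℝ] Y} (hD : D.IsFredholm) {ι : Type*} (θ : ι → ℂ →L[ℝ] Y)
    (h : D.range ⊔ Submodule.span ℝ {y | ∃ w c, θ w c = y} = ⊤) :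
    ∃ (m : ℕ) (w : Fin m → ι), ∀ y, ∃ (x : X) (a : Fin m → ℂ), D x + ∑ k, θ (w k) (a k) = y := by
  have : FiniteDimensional ℝ (Y ⧸ D.range) := hD.finite_coker
  have h1 : Submodule.span ℝ (D.range.mkQ '' {y | ∃ w c, θ w c = y}) = ⊤ := by
    rw [← Submodule.map_span, Submodule.map_mkQ_eq_top, h]
  obtain ⟨t, ht, h2, h3⟩ := exists_linearIndependent ℝ (D.range.mkQ '' {y | ∃ w c, θ w c = y})
  have hfin : t.Finite := h3.setFinite
  obtain ⟨m, f, hf⟩ := hfin.fin_embedding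
  have hw : ∀ k, ∃ w c, D.range.mkQ (θ w c) = f k := fun k => by
    obtain ⟨_, ⟨w, c, rfl⟩, e⟩ := ht (hf ▸ mem_range_self k : f k ∈ t)
    exact ⟨w, c, e⟩
  choose w c hwc using hw
  refine ⟨m, w, fun y => ?_⟩
  have h4 : D.range.mkQ y ∈ Submodule.span ℝ (range f) := by
    rw [hf, h2, h1]
    trivial
  obtain ⟨a, ha⟩ := (Submodule.mem_span_range_iff_exists_fun ℝ).1 h4
  have h5 : y - ∑ k, θ (w k) (a k • c k) ∈ D.range := by
    rw [← Submodule.Quotient.mk_eq_zero, ← Submodule.mkQ_apply, map_sub, map_sum, ← ha]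
    simp only [map_smul, hwc, sub_self]
  obtain ⟨x, hx⟩ := h5
  exact ⟨x, fun k => a k • c k, by rw [show D x = _ from hx, sub_add_cancel]⟩

end Crest.Agent.X212.Top68
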