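import Crest.Agent.X212.Kur68.Main
import Crest.Agent.X212.Top68.Lin

/-! Kuranishi at a reducible point modulo gauge, format free.  The pure gauge group acts freely at
the point; the stabiliser in the extended group rotates `P`.  The gauge row need not be
equivariant. -/

set_option autoImplicit false
set_option linter.unusedSectionVars false

noncomputable section

open Set Function Filter Topology Module
open scoped InnerProductSpace

namespace Crest.Agent.X212.Top68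

variable {X Y H L P : Type*} [NormedAddCommGroup X] [NormedSpace ℝ X] [CompleteSpace X]
  [NormedAddCommGroup Y] [NormedSpace ℝ Y] [CompleteSpace Y]
  [NormedAddCommGroup H] [NormedSpace ℝ H] [CompleteSpace H]
  [NormedAddCommGroup L] [NormedSpace ℝ L] [CompleteSpace L]
  [NormedAddCommGroup P] [InnerProductSpace ℂ P] [FiniteDimensional ℂ P]

/-- local gauge fixing (no properness, no uniqueness) -/
theorem gauge_fix {a : L × X → X} {d : L →L[ℝ] X} {σ : X →L[ℝ] H} {x₀ : X}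
    (ha : HasStrictFDerivAt a (d.coprod (ContinuousLinearMap.id ℝ X)) (0, x₀))
    (h0 : a (0, x₀) = x₀) (hb : Bijective (σ.comp d)) {N : Set X} (hN : N ∈ 𝓝 x₀) :
    ∀ᶠ x in 𝓝 x₀, ∃ ξ, a (ξ, x) ∈ N ∧ σ (a (ξ, x) - x₀) = 0 := by
  let B : L × X →L[ℝ] H × X :=
    (σ.comp (d.coprod (ContinuousLinearMap.id ℝ X))).prod (ContinuousLinearMap.snd ℝ L X)
  have hB : Bijective B := by
    constructor
    · rw [injective_iff_map_eq_zero]
      rintro ⟨ξ, v⟩ h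
      have h2 : v = 0 := congrArg Prod.snd h
      have h1 : σ (d ξ + v) = 0 := congrArg Prod.fst h
      rw [h2, add_zero] at h1
      have : ξ = 0 := hb.1 (by simpa using h1)
      simp [this, h2]
    · rintro ⟨w, v⟩
      obtain ⟨ξ, hξ⟩ := hb.2 (w - σ v)
      refine ⟨(ξ, v), Prod.ext ?_ rfl⟩
      show σ (d ξ + v) = w
      rw [map_add, show σ (d ξ) = w - σ v from hξ, sub_add_cancel]
  let A : (L × X) ≃L[ℝ] (H × X) := ContinuousLinearEquiv.ofBijective B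
    (LinearMap.ker_eq_bot.2 hB.1) (LinearMap.range_eq_top.2 hB.2)
  have hA : HasStrictFDerivAt (fun q : L × X => (σ (a q - x₀), q.2)) (A : L × X →L[ℝ] H × X)
      (0, x₀) := (σ.hasStrictFDerivAt.comp (0, x₀) (ha.sub_const x₀)).prodMk hasStrictFDerivAt_snd
  have h1 := hA.map_nhds_eq_of_equiv
  simp only [h0, sub_self, map_zero] at h1
  have h2 : a ⁻¹' N ∈ 𝓝 ((0, x₀) : L × X) := ha.continuousAt.preimage_mem_nhds (by rwa [h0])
  have h3 := image_mem_map (m := fun q : L × X => (σ (a q - x₀), q.2)) h2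
  rw [h1] at h3
  have h4 : Tendsto (fun x : X => ((0, x) : H × X)) (𝓝 x₀) (𝓝 (0, x₀)) :=
    Continuous.tendsto' (by fun_prop) _ _ rfl
  filter_upwards [h4.eventually h3] with x hx
  obtain ⟨⟨ξ, y⟩, h5, h6⟩ := hx
  obtain rfl : y = x := congrArg Prod.snd h6
  exact ⟨ξ, h5, congrArg Prod.fst h6⟩

theorem exists_phase (c : ℂ) : ∃ u : Circle, ((u : ℂ) * c).im = 0 ∧ 0 ≤ ((u : ℂ) * c).re := by
  refine ⟨Circle.exp (-Complex.arg c), ?_⟩
  have : ((Circle.exp (-Complex.arg c) : Circle) : ℂ) * c = (‖c‖ : ℂ) := by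
    conv_lhs => rw [← Complex.norm_mul_exp_arg_mul_I c]
    rw [Circle.coe_exp, mul_left_comm, ← Complex.exp_add]
    simp
  rw [this]
  simp

/-- **One regular orbit on the link.** `r` is gauge equivalence of the extended group. -/
theorem top {F : X × P → Y} {T : X × P →L[ℝ] Y} {x₀ : X} (hF : HasStrictFDerivAt F T (x₀, 0))
    (h0 : F (x₀, 0) = 0) {a : L × X → X} {d : L →L[ℝ] X} {σ : X →L[ℝ] H}
    (ha : HasStrictFDerivAt a (d.coprod (ContinuousLinearMap.id ℝ X)) (0, x₀))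
    (ha0 : a (0, x₀) = x₀) (hb : Bijective (σ.comp d))
    {r : X × P → X × P → Prop} (htr : ∀ u v w, r u v → r v w → r u w)
    (hra : ∀ ξ x p, r (x, p) (a (ξ, x), p))
    (hrF : ∀ᶠ v in 𝓝 ((x₀, 0) : X × P), ∀ w, r v w → F v = 0 → F w = 0)
    (hρ : ∀ N ∈ 𝓝 x₀, ∀ᶠ x in 𝓝 x₀, ∀ (u : Circle) (p : P), ∃ x' ∈ N, r (x, p) (x', (u : ℂ) • p))
    {z0 : P} (hz : ‖z0‖ = 1) (hs : Surjective fun w : X × P => (T w, σ w.1))
    (hk : ∀ w, T w = 0 → σ w.1 = 0 → ⟪z0, w.2⟫_ℂ = 0 → w = 0)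
    (hl : ∀ c : ℂ, ∃ y, T (y, c • z0) = 0 ∧ σ y = 0) :
    ∃ N ∈ 𝓝 x₀, ∀ N₀ ∈ 𝓝 x₀, ∀ᶠ ε in 𝓝[>] (0 : ℝ), ∃ w₀ : X × P,
      w₀.1 ∈ N₀ ∧ ‖w₀.2‖ = ε ∧ F w₀ = 0 ∧ σ (w₀.1 - x₀) = 0 ∧
      (∀ w : X × P, w.1 ∈ N → ‖w.2‖ = ε → F w = 0 → r w w₀) ∧
      ∀ D : X × P →L[ℝ] Y, HasFDerivAt F D w₀ →
        Bijective fun v : X × P => ((D v, σ v.1), (⟪w₀.2, v.2⟫_ℂ).re, (⟪z0, v.2⟫_ℂ).im) := by
  have : CompleteSpace P := FiniteDimensional.complete ℂ P
  let σ' : X × P →L[ℝ] H := σ.comp (ContinuousLinearMap.fst ℝ X P)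
  let F' : X × P → Y × H := fun w => (F (((x₀, 0) : X × P) + w), σ' w)
  have hF' : HasStrictFDerivAt F' (T.prod σ') 0 := by
    refine HasStrictFDerivAt.prodMk ?_ σ'.hasStrictFDerivAt
    have h1 : HasStrictFDerivAt F T (((x₀, 0) : X × P) + 0) := by rwa [add_zero]
    simpa using h1.comp (0 : X × P) ((hasStrictFDerivAt_id (0 : X × P)).const_add (x₀, 0))
  obtain ⟨C, δ, ε0, hδ, hε0, h⟩ := Kur.kur hF' (by simp [F', h0]) hz hs
    (fun w h1 h2 => hk w (congrArg Prod.fst h1) (congrArg Prod.snd h1) h2)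
    (fun c => by
      obtain ⟨y, h1, h2⟩ := hl c
      exact ⟨y, Prod.ext h1 h2⟩)
  obtain ⟨N1, hN1, N2, hN2, hN⟩ := mem_nhds_prod_iff.1 hrF
  obtain ⟨η, hη, hb2⟩ := Metric.mem_nhds_iff.1 hN2
  have g1 := hρ _ (gauge_fix ha ha0 hb (Metric.ball_mem_nhds x₀ hδ))
  refine ⟨_, inter_mem hN1 g1, fun N₀ hN₀ => ?_⟩
  obtain ⟨κ, hκ, hb3⟩ := Metric.mem_nhds_iff.1 hN₀
  have e1 : ∀ᶠ ε in 𝓝[>] (0 : ℝ), C * ε < κ :=
    nhdsWithin_le_nhds (ContinuousAt.eventually_lt (f := fun ε : ℝ => C * ε) (g := fun _ => κ)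
      (by fun_prop) continuousAt_const (by simpa using hκ))
  filter_upwards [e1, Ioo_mem_nhdsGT (lt_min hε0 hη)] with ε h1 h2
  obtain ⟨w0, a1, -, a3, a4, -, -, a7, a8⟩ := h ε h2.1 (h2.2.trans_le (min_le_left _ _))
  refine ⟨((x₀, 0) : X × P) + w0, hb3 ?_, by simpa using a3, congrArg Prod.fst a4, ?_, ?_, ?_⟩
  · simpa using a1.trans_lt h1
  · have : σ w0.1 = 0 := congrArg Prod.snd a4
    simpa using this
  · rintro ⟨x, p⟩ hx hp hw
    obtain ⟨u, b1, b2⟩ := exists_phase ⟪z0, p⟫_ℂ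
    obtain ⟨x', ⟨ξ, c1, c2⟩, c3⟩ := hx.2 u p
    have c4 := htr _ _ _ c3 (hra ξ x' _)
    have c5 := hN (mk_mem_prod hx.1 (hb2 (by
      simpa using (show ‖p‖ = ε from hp).trans_lt (h2.2.trans_le (min_le_right _ _))))) _ c4 hw
    have c6 := a7 (a (ξ, x') - x₀, (u : ℂ) • p) (by simpa [dist_eq_norm] using c1)
      (by simpa [norm_smul] using hp) (Prod.ext (by simpa [F'] using c5) c2)
      (by rwa [inner_smul_right]) (by rwa [inner_smul_right])
    rw [← c6]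
    simpa using c4
  · intro D hD
    have h3 : HasFDerivAt F' (D.prod σ') w0 := by
      refine HasFDerivAt.prodMk ?_ σ'.hasFDerivAt
      simpa [Function.comp_def] using hD.comp w0 ((hasFDerivAt_id w0).const_add (x₀, 0))
    simpa [σ'] using a8 _ h3

end Crest.Agent.X212.Top68
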