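import Crest.Agent.X212.Top68.Iso
import Crest.Agent.X212.Tan54.Hc
import Crest.Agent.X212.Lad50.Nd

/-! The stabiliser on the model; the linear problem on the link. -/

set_option autoImplicit false
set_option linter.unusedSectionVars false
noncomputable section
open scoped Manifold ContDiff Topology InnerProductSpace
open MeasureTheory Set Function Filter

namespace Crest.Agent.X212.Top68
open An An.Pre Sob92 Abel74 Map77 Eqv71
open Eq82 (var vD vC Ed fz wz Rig SLim)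
open Lad50.Tq (gnQ gaQ)
open Tan54 (rotQ)
open ContinuousLinearMap (fst snd inl inr proj)

variable {E : Type} [NormedAddCommGroup E] [NormedSpace ℝ E] [FiniteDimensional ℝ E]
  [MeasurableSpace E] [BorelSpace E]
  {HM : Type} [TopologicalSpace HM] {I : ModelWithCorners ℝ E HM} [I.Boundaryless]
  {M : Type} [TopologicalSpace M] [ChartedSpace HM M] [IsManifold I ∞ M]
  [MeasurableSpace M] [T2Space M] [BorelSpace M] [SecondCountableTopology M]
  {ι : Type} [Fintype ι] {lam : Type} [Fintype lam] {r n k m j J K : ℕ}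
  {B : Base M ι lam} {G : Geo I M ι lam} {F : Fr I M ι} {c : Cfg M ι lam 0} {ξ : M → c.m.A}

theorem line3 {X Y H L P S A : Type} [NormedAddCommGroup X] [NormedSpace ℝ X] [CompleteSpace X]
    [NormedAddCommGroup Y] [NormedSpace ℝ Y] [CompleteSpace Y]
    [NormedAddCommGroup H] [NormedSpace ℝ H] [CompleteSpace H]
    [NormedAddCommGroup L] [NormedSpace ℝ L] [CompleteSpace L]
    [NormedAddCommGroup P] [InnerProductSpace ℂ P] [FiniteDimensional ℂ P]
    [NormedAddCommGroup S] [NormedSpace ℂ S] [FiniteDimensional ℂ S]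
    [NormedAddCommGroup A] [NormedSpace ℂ A] [FiniteDimensional ℂ A]
    {D : X × A →L[ℝ] Y × S} {σ : X →L[ℝ] H} {d : L →L[ℝ] X} {res : P →L[ℂ] S} {j : ℕ}
    (hD : Fred93.Fr ((fst ℝ Y S ∘L D ∘L inl ℝ X A).prod σ) (-(2 * j))) (hb : Bijective (σ.comp d))
    (h1 : ∀ η, D (d η, 0) = 0) (hres : Surjective res)
    (hP : Module.finrank ℂ P = j + 1 + Module.finrank ℂ S)
    (hk : ∀ x, D (x, 0) = 0 → σ x = 0 → x = 0) (h0 : ∀ p, (D (0, p)).2 = 0)
    (hc : ∀ y, ∃ x p, (D (x, 0)).1 + (D (0, p)).1 = y) {R : X → X}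
    (hR : ∀ x p, ((D (x, p)).1 = 0 → (D (R x, Complex.I • p)).1 = 0) ∧
      (D (R x, Complex.I • p)).2 = Complex.I • (D (x, p)).2) :
    ∃ (N : P →L[ℂ] A) (z0 : P), ‖z0‖ = 1 ∧ ∀ T : X × P →L[ℝ] Y × S,
      (∀ y, T y = D (y.1, N y.2) + (0, res y.2)) → (Surjective fun w : X × P => (T w, σ w.1)) ∧
      (∀ w, T w = 0 → σ w.1 = 0 → ⟪z0, w.2⟫_ℂ = 0 → w = 0) ∧
      ∀ c : ℂ, ∃ y, T (y, c • z0) = 0 ∧ σ y = 0 := by
  have sp : ∀ x p, D (x, p) = D (x, 0) + D (0, p) := fun x p => by rw [← map_add]; simp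
  obtain ⟨N, z0, a1, a2⟩ := line2 (Θ := fst ℝ Y S ∘L D ∘L inr ℝ X A)
    (ds := -(snd ℝ Y S ∘L D ∘L inl ℝ X A)) hD hb (fun η => congrArg Prod.fst (h1 η))
    (fun η => neg_eq_zero.2 (congrArg Prod.snd (h1 η))) hres hP
    (fun x b1 b2 b3 => hk x (Prod.ext b1 (neg_eq_zero.1 b3)) b2) hc fun x p b =>
      ⟨R x, (congrArg Prod.fst (sp _ _)).symm.trans ((hR x p).1 ((congrArg Prod.fst (sp x p)).trans b)),
        by simpa using (hR x 0).2⟩
  refine ⟨N, z0, a1, fun T hT => a2 T fun y => (hT y).trans ?_⟩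
  rw [sp]
  exact Prod.ext (add_zero _) (by simp [h0, add_comm])

variable (B G ξ k r) in
/-- the stabiliser on the model -/
def rH (u : Circle) : XB G c B k × Pz r →L[ℝ] XB G c B k × Pz r :=
  (G.F.mulH (k + 1) _ _ (br B c ξ u)).prodMap (((u : ℂ) ^ 2) • ContinuousLinearMap.id ℝ (Pz r))

theorem rH_apply (u : Circle) (w : XB G c B k × Pz r) : rH r k B G ξ u w =
    (G.F.mulH (k + 1) _ _ (br B c ξ u) w.1, ((u : ℂ) ^ 2) • w.2) := rfl

theorem ev_val {V : Type} [NormedAddCommGroup V] [InnerProductSpace ℝ V] {p : M → V →L[ℝ] V}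
    {F : Pre I M ι} (x : M) (y : F.H k p) : F.ev k p x y = F.val k p y x := rfl

variable (j J) in
/-- the coordinates that are cut -/
def res : Pz (j + 1 + J) →L[ℂ] Fin J → ℂ :=
  ContinuousLinearMap.pi fun a => EuclideanSpace.proj (Fin.natAdd (j + 1) a)

theorem ev_lk (τ : Pt M ι lam (j + 1 + J) J) (w : Fin K → LT M lam) (i : Fin K → Fin (j + 1 + J))
    (v : Fin K → ℝ) (g : Fin J → Sg M lam) (e : ℝ) (c : Cfg M ι lam (j + 1 + J)) (x : M) :
    ev B G (lk B G.F τ (fun k => (w k).tm J (i k)) v g e) c x =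
      ev B G τ c x - ∑ k, v k • (w k).val B G.F c ((e • c.z) (i k)) x := by
  rw [lk, ev_add0 _ _ _ (by simp [cuts, Pt.add, wpt, Cfg.tD]) (by simp [cuts, Pt.add, wpt, Cfg.tC]),
    ev_tm]
  refine congrArg _ (Finset.sum_congr rfl fun k _ => ?_)
  rw [PiLp.smul_apply, (LT.val_lin _ _ _).map_smul, smul_smul, mul_comm]
  rfl

theorem lk_S (τ : Pt M ι lam (j + 1 + J) J) (w : Fin K → LT M lam) (i : Fin K → Fin (j + 1 + J))
    (v : Fin K → ℝ) (g : Fin J → Sg M lam) (e : ℝ) (c : Cfg M ι lam (j + 1 + J)) (a : Fin J) :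
    (lk B F τ (fun k => (w k).tm J (i k)) v g e).S c a =
      τ.S c a + (res j J (e • c.z) a - c.sg F (g a)) := by
  simp only [lk, cuts, Pt.add, tm_S, cut_S, add_zero]
  simp [wpt, Cfg.tS, Pi.single_apply, res, sub_eq_add_neg]

variable [CompactSpace M]

section rot
variable (h : TP B G c ξ)
include h

theorem TP.rH_toH (u : Circle) (v : SB I c B) : ∃ v' : SB I c B, ∀ p : Pz r,
    rH r k B G ξ u (tH G k v, p) = (tH G k v', ((u : ℂ) ^ 2) • p) ∧
      Ce B G.F (cv c v.1 p) (cv c v'.1 (((u : ℂ) ^ 2) • p)) (ur c ξ u) u := by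
  obtain ⟨⟨v', hv⟩, h1, h2⟩ := rep_mulH (k := k + 1) ((rotQ h).cb u) ((rotQ h).mp u) v
  obtain rfl : v' = _ := h1
  exact ⟨_, fun p => ⟨Prod.ext h2 rfl, (rotQ h).eq r u v p⟩⟩

theorem TP.rH_nhds : ∀ N ∈ 𝓝 (0 : XB G c B k × Pz r), ∀ᶠ w in 𝓝 0, ∀ u, rH r k B G ξ u w ∈ N := by
  intro N hN
  obtain ⟨C, hC⟩ := (rotQ h).bd (k + 1)
  obtain ⟨δ, hδ, hb⟩ := Metric.mem_nhds_iff.1 hN
  have : ∀ᶠ w : XB G c B k × Pz r in 𝓝 0, max (C * ‖w.1‖) ‖w.2‖ < δ :=
    (Continuous.tendsto' (by fun_prop) 0 0 (by simp)).eventually (gt_mem_nhds hδ)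
  filter_upwards [this] with w hw u
  refine hb (mem_ball_zero_iff.2 (lt_of_le_of_lt (max_le_max ?_ ?_) hw))
  · exact ContinuousLinearMap.le_of_opNorm_le _ (hC u) _
  · change ‖((u : ℂ) ^ 2) • w.2‖ ≤ ‖w.2‖
    simp [norm_smul]

theorem TP.rot_der (hk : 7 ≤ k) {τ : Pt M ι lam r n}
    {f : XB G c B k × Pz r → YB G c B k × (Fin n → ℂ)} (hf : Rt B G c _ τ f) (w : Wp B G.F τ)
    (u : Circle) (y : XB G c B k × Pz r) :
    ((fderiv ℝ f 0 y).1 = 0 → (fderiv ℝ f 0 (rH r k B G ξ u y)).1 = 0) ∧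
      (fderiv ℝ f 0 (rH r k B G ξ u y)).2 = ((u : ℂ) ^ 2) • (fderiv ℝ f 0 y).2 := by
  have key : ∀ (Z : Type) [NormedAddCommGroup Z] [NormedSpace ℝ Z]
      (π : YB G c B k × (Fin n → ℂ) →L[ℝ] Z) (A : Z →L[ℝ] Z), (∀ (v v' : SB I c B) p p',
        Ce B G.F (cv c v.1 p) (cv c v'.1 p') (ur c ξ u) u →
        π (f (tH G k v', p')) = A (π (f (tH G k v, p)))) →
      π (fderiv ℝ f 0 (rH r k B G ξ u y)) = A (π (fderiv ℝ f 0 y)) := fun Z _ _ π A H =>
    der_cmp (hf.sm.differentiable (by simp)) (hf.sm.differentiable (by simp)) (rH r k B G ξ u)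
      (.id ℝ _) π (A ∘L π) (congrFun (ext_sm
        (π.continuous.comp (hf.sm.continuous.comp (rH r k B G ξ u).continuous))
        ((A ∘L π).continuous.comp hf.sm.continuous) fun v p =>
          let ⟨v', a⟩ := h.rH_toH (k := k) (r := r) u v
          (congrArg (fun y => π (f y)) (a p).1).trans (H v v' p _ (a p).2))) y
  have nat := fun (v v' : SB I c B) p p' (e : Ce B G.F (cv c v.1 p) (cv c v'.1 p') (ur c ξ u) u) =>
    w.nat h.hB h.hG h.tame (h.a0 v p) (h.a0 v' p') e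
  have d1 : ∀ (v : SB I c B) p x, f2 c.m.V (Fm (ι × ι) c.m.A)
      (G.F.val k (bdm B c.m).pE (f (tH G k v, p)).1 x) = (cv c v.1 p).eD G τ x := fun v p x =>
    (congrArg (f2 c.m.V (Fm (ι × ι) c.m.A)) (congrFun (hf.e v p) x)).trans
      (f2_ev τ (cv c v.1 p) x)
  have d2 : ∀ (v : SB I c B) p x, s2 c.m.V (Fm (ι × ι) c.m.A)
      (G.F.val k (bdm B c.m).pE (f (tH G k v, p)).1 x) = (cv c v.1 p).eC B G τ x := fun v p x =>
    (congrArg (s2 c.m.V (Fm (ι × ι) c.m.A)) (congrFun (hf.e v p) x)).trans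
      (s2_ev τ (cv c v.1 p) x)
  refine ⟨fun h0 => val_injective h.hy.sup (by omega) (funext fun x => ext2 ?_ (fm_ext fun s => ?_)),
    ?_⟩
  · have := key _ (f2 c.m.V (Fm (ι × ι) c.m.A) ∘L G.F.ev k (bdm B c.m).pE x ∘L fst ℝ _ _)
      (csL c.m.J u ∘L ur c ξ u x) fun v v' p p' e => by
        simp only [ContinuousLinearMap.comp_apply, ContinuousLinearMap.coe_fst', ev_val, d1]
        exact (nat v v' p p' e).1 x
    simp only [ContinuousLinearMap.comp_apply, ContinuousLinearMap.coe_fst', h0, map_zero] at this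
    rw [val_zero, Pi.zero_apply, map_zero, ← ev_val]
    exact this
  · have := key _ (Grp76.pj c.m.A s ∘L s2 c.m.V (Fm (ι × ι) c.m.A) ∘L G.F.ev k (bdm B c.m).pE x ∘L fst ℝ _ _)
      (cj (ur c ξ u x)) fun v v' p p' e => by
        simp only [ContinuousLinearMap.comp_apply, ContinuousLinearMap.coe_fst', ev_val, d2]
        exact (nat v v' p p' e).2.1 x s
    simp only [ContinuousLinearMap.comp_apply, ContinuousLinearMap.coe_fst', h0, map_zero] at this
    rw [val_zero, Pi.zero_apply, map_zero, ← ev_val]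
    exact this
  · exact key _ (snd ℝ _ _) (((u : ℂ) ^ 2) • .id ℝ _) fun v v' p p' e => by
      simp only [ContinuousLinearMap.coe_snd', hf.s, smul_apply,
        ContinuousLinearMap.id_apply]
      exact funext (nat v v' p p' e).2.2

end rot

variable {τ : ∀ r n, Pt M ι lam r n} (h : TH B G τ c ξ (-(2 * j))) (hk : 7 ≤ k)
  {g : Fin J → Sg M lam} (hg : ∀ a, (g a).OK G.F)
include h hk hg

/-- **The linear problem on the link.** -/
theorem TH.line (h2 : ∀ x : XB G c B k, (fderiv ℝ (mdl k B G c (τ 0 0)) 0 (x, 0)).1 = 0 →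
    σB G c B k x = 0 → (∀ a, lg k B G c (g a) x = 0) → x = 0) :
    ∃ (m : ℕ) (w : Fin m → LT M lam) (A : Pz (j + 1 + J) →L[ℂ] Pz m) (z0 : Pz (j + 1 + J)),
      (∀ b, (w b).OK G.F) ∧ ‖z0‖ = 1 ∧
      ∀ T : XB G c B k × Pz (j + 1 + J) →L[ℝ] YB G c B k × (Fin J → ℂ),
        (∀ y, T y = fderiv ℝ (mdl k B G c (t1 B G.F (τ m J) w g)) 0 (y.1, A y.2) +
          (0, res j J y.2)) →
        (Surjective fun y : XB G c B k × Pz (j + 1 + J) => (T y, σB G c B k y.1)) ∧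
        (∀ y, T y = 0 → σB G c B k y.1 = 0 → ⟪z0, y.2⟫_ℂ = 0 → y = 0) ∧
        ∀ a : ℂ, ∃ y, T (y, a • z0) = 0 ∧ σB G c B k y = 0 := by
  obtain ⟨m, w, hw, hc⟩ := Tan54.hcQ h.toTP (gnQ h.toTP) (rotQ h.toTP) (h.wp 0 0) h.tr
    (Tan54.tan h.toTP) (Lad50.Nd.nd h.toTP) h.ix k hk _ (h.rt0 hk)
  obtain ⟨a, dd, ga⟩ := (gaQ h.toTP m k hk).ga
  have wp := h.wp1 hw hg
  have hf := h.rt hk (gnQ h.toTP) wp
  set f := mdl k B G c (t1 B G.F (τ m J) w g)
  have e0 := tH_zero (G := G) (k := k) (c := c) (B := B) (r := m)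
  have d0 : ∀ η, fderiv ℝ f 0 (dB G k 0 η, 0) = 0 := fun η =>
    e0 ▸ h.der_d hf hk ga wp (h.f_zero hg hk hf) η
  have e3 : ((Circle.exp (Real.pi / 4) : Circle) : ℂ) ^ 2 = Complex.I := by
    rw [← Circle.coe_pow, sq, ← Circle.exp_add, show Real.pi / 4 + Real.pi / 4 = Real.pi / 2 by ring,
      Circle.coe_exp]
    push_cast
    exact Complex.exp_pi_div_two_mul_I
  obtain ⟨A, z0, a1, a2⟩ := line3 (D := fderiv ℝ f 0) (res := res j J)
    ((gnQ h.toTP _ _ _ wp).fr h.hy h.cb hk hf (h.ix k) 0) h.bij d0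
    (fun y => ⟨WithLp.toLp 2 (Fin.append 0 y), funext fun a => Fin.append_right _ _ _⟩) (by simp)
    (fun x b1 b2 => h2 x ((h.der_fst hk hf x).symm.trans (congrArg Prod.fst b1)) b2 fun a =>
      neg_eq_zero.1 ((h.der_snd hg hk hf x a).symm.trans (congrFun (congrArg Prod.snd b1) a)))
    (fun p => (h.der_z hk hf p).2) (fun y => by
      obtain ⟨x, t, e⟩ := hc y
      refine ⟨x, WithLp.toLp 2 fun b => (-t b) • (1 : ℂ), val_injective h.hy.sup (by omega) ?_⟩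
      rw [e, val_add, ← h.der_fst hk hf x]
      refine congrArg _ (funext fun x => ((h.der_z hk hf _).1 x).trans ?_)
      rw [Finset.sum_apply, ← Finset.sum_neg_distrib]
      exact Finset.sum_congr rfl fun b _ => (congrArg Neg.neg (((w b).val_lin c x).map_smul (-t b)
        1)).trans (by rw [neg_smul, neg_neg]; rfl))
    (R := G.F.mulH (k + 1) _ _ (br B c ξ (Circle.exp (Real.pi / 4)))) fun x p => by
      have := h.rot_der hk hf wp (Circle.exp (Real.pi / 4)) (x, p)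
      rwa [rH_apply, e3] at this
  exact ⟨m, w, A, z0, hw, a1, a2⟩

end Crest.Agent.X212.Top68
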