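import Crest.Agent.X212.Top68.Ana
import Crest.Agent.X212.Top68.Defs
import Crest.Agent.X212.Eqv71.Nat
import Crest.Agent.X212.Mod61.Hs

/-! The Banach model at a configuration `c`; the leaves `GnQ`, `GaQ`, `RotQ`, `HcQ`. -/

set_option autoImplicit false
set_option linter.unusedSectionVars false
noncomputable section
open scoped Manifold ContDiff Topology InnerProductSpace
open MeasureTheory Set Function Filter

namespace Crest.Agent.X212.Top68
open An An.Pre Sob92 Abel74 Map77 Eqv71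
open Eq82 (var vD vC Ed)

variable {E : Type} [NormedAddCommGroup E] [NormedSpace ℝ E] [FiniteDimensional ℝ E]
  [MeasurableSpace E] [BorelSpace E]
  {HM : Type} [TopologicalSpace HM] {I : ModelWithCorners ℝ E HM} [I.Boundaryless]
  {M : Type} [TopologicalSpace M] [ChartedSpace HM M] [IsManifold I ∞ M]
  [MeasurableSpace M] [T2Space M] [BorelSpace M] [SecondCountableTopology M]
  {ι : Type} [Fintype ι] {lam : Type} [Fintype lam] {r n : ℕ}

/-- the weight two coordinates -/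
abbrev Pz (r : ℕ) : Type := EuclideanSpace ℂ (Fin r)

/-- the configuration with coordinates `(v, p)` -/
@[reducible] def cv (c : Cfg M ι lam 0) (v : M → Cf ι (Fin c.m.N)) (p : Pz r) : Cfg M ι lam r :=
  ⟨c.m, c.m.addC c.W fun x => fa (v x), fun x => c.Φ x + fp (v x), p⟩

/-- equivalence over `M` -/
abbrev Ce (B : Base M ι lam) (F : Fr I M ι) (c c' : Cfg M ι lam r) (u : M → CL c.m.V c'.m.V)
    (ζ : Circle) : Prop := CEq F c c' univ id (fun x b a => B.P b a x) B.l u ζ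

variable (B : Base M ι lam) (G : Geo I M ι lam)

/-- the two equations as one function -/
def ev (τ : Pt M ι lam r n) (c : Cfg M ι lam r) (x : M) : Ef ι (Fin c.m.N) :=
  i1 _ _ (c.eD G τ x) + i2 _ _ (c.eC B G τ x)

/-- sums of admissible terms -/
inductive Wp (F : Fr I M ι) : Pt M ι lam r n → Prop
  | wpt {K : Type} [Fintype K] (T : K → Tm M lam r n) (w : K → ℝ) (h : ∀ i, (T i).OK F) :
    Wp F (wpt B F T w)
  | add {τ τ' : Pt M ι lam r n} : Wp F τ → Wp F τ' → Wp F (τ.add τ')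

variable (c : Cfg M ι lam 0) (ξ : M → c.m.A)

/-- `f` is the Banach model of the equations perturbed by `τ` -/
abbrev Rt (d : Bd M ι (Fin c.m.N)) (τ : Pt M ι lam r n) {k : ℕ}
    (f : XH G.F d k × Pz r → YH G.F d k × (Fin n → ℂ)) : Prop :=
  Rep (fun v p => ev B G τ (cv c v p)) (fun v p => τ.S (cv c v p)) f

/-- the equations perturbed by `τ` are the monopole map up to a smoothing term -/
abbrev Gn (d : Bd M ι (Fin c.m.N)) (τ : Pt M ι lam r n) : Prop :=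
  Gain G.F d (base c.W c.Φ) (fun v p => ev B G τ (cv c v p)) fun v p => τ.S (cv c v p)

/-- LEAF GN -/
def GnQ : Prop := ∀ (r n : ℕ) (τ : Pt M ι lam r n), Wp B G.F τ → Gn B G c (bdm B c.m) τ

/-- LEAF GA (for `d = bdm B c.m`, `7 ≤ k`): the gauge action near the identity -/
def GaQ (d : Bd M ι (Fin c.m.N)) (r k : ℕ) : Prop :=
  ∃ (a : G.F.H (k + 2) d.g × XH G.F d k × Pz r → XH G.F d k × Pz r)
    (dd : XH G.F d k × Pz r → G.F.H (k + 2) d.g →L[ℝ] XH G.F d k), Continuous dd ∧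
    (∀ (v : Sec I d.pC) p, dd (G.F.toH _ _ v, p) =
      d.DD G.F.toPre G.F (k + 1) fun x => base c.W c.Φ x + v.1 x) ∧
    (∀ w, a (0, w) = w) ∧ (∀ q, (a q).2 = q.2.2) ∧
    (∀ w, HasStrictFDerivAt a ((ContinuousLinearMap.inl ℝ _ (Pz r) ∘L dd w).coprod
      (ContinuousLinearMap.id ℝ _)) (0, w)) ∧
    (∀ η (v v' : Sec I d.pC) p, (a (η, G.F.toH _ _ v, p)).1 = G.F.toH _ _ v' →
      ∃ u, Ce B G.F (cv c v.1 p) (cv c v'.1 p) u 1) ∧
    ∀ η (v : Sec I d.pC) p (Z : Set (XH G.F d k × Pz r)), IsClosed Z →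
      (∀ (v' : Sec I d.pC) u, Ce B G.F (cv c v.1 p) (cv c v'.1 p) u 1 → (G.F.toH _ _ v', p) ∈ Z) →
      a (η, G.F.toH _ _ v, p) ∈ Z

/-- the stabiliser of a point of type S -/
def ur (ζ : Circle) (x : M) : En (Fin c.m.N) := (ζ : ℂ).re • c.m.p x - (ζ : ℂ).im • opL (ξ x)

/-- its action on the coordinates -/
def br (ζ : Circle) (x : M) : CL (Cf ι (Fin c.m.N)) (Cf ι (Fin c.m.N)) :=
  sm2 (idx (fun a b => B.P a b x) (cj (ur c ξ ζ x))) (csL c.m.J ζ ∘L ur c ξ ζ x)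

/-- LEAF ROT -/
structure RotQ : Prop where
  cb : ∀ ζ, G.F.Cb (br B c ξ ζ)
  mp : ∀ ζ, Maps (bdm B c.m).pC (bdm B c.m).pC (br B c ξ ζ)
  bd : ∀ k, ∃ C, ∀ ζ, ‖G.F.mulH k (bdm B c.m).pC (bdm B c.m).pC (br B c ξ ζ)‖ ≤ C
  eq : ∀ (r : ℕ) ζ (v : Sec I (bdm B c.m).pC) (p : Pz r), Ce B G.F (cv c v.1 p)
    (cv c (fun x => br B c ξ ζ x (v.1 x)) (((ζ : ℂ) ^ 2) • p)) (ur c ξ ζ) ζ

/-- LEAF HC: finitely many terms span the cokernel -/
def HcQ (τ : Pt M ι lam 0 0) : Prop :=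
  ∀ k, 7 ≤ k → ∀ f : XH G.F (bdm B c.m) k × Pz 0 → YH G.F (bdm B c.m) k × (Fin 0 → ℂ),
    Rt B G c _ τ f → ∃ (m : ℕ) (w : Fin m → LT M lam), (∀ b, (w b).OK G.F) ∧
      ∀ y : YH G.F (bdm B c.m) k, ∃ (x : XH G.F (bdm B c.m) k) (a : Fin m → ℝ),
        G.F.val _ _ y = G.F.val _ _ (fderiv ℝ f 0 (x, 0)).1 + ∑ b, a b • (w b).val B G.F c 1

variable {B G c ξ}

theorem f2_ev (τ : Pt M ι lam r n) (c : Cfg M ι lam r) (x : M) :
    f2 _ _ (ev B G τ c x) = c.eD G τ x := by simp [ev]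

theorem s2_ev (τ : Pt M ι lam r n) (c : Cfg M ι lam r) (x : M) :
    s2 _ _ (ev B G τ c x) = c.eC B G τ x := by simp [ev]

theorem cfg_ext {m : Md M ι lam} {W W' : m.Cn} {Φ Φ' : M → m.V} {z z' : Pz r} (h1 : W = W')
    (h2 : Φ = Φ') (h3 : z = z') : (⟨m, W, Φ, z⟩ : Cfg M ι lam r) = ⟨m, W', Φ', z'⟩ := by
  rw [h1, h2, h3]

theorem cv_zero (p : Pz r) : cv c 0 p = ⟨c.m, c.W, c.Φ, p⟩ :=
  cfg_ext (funext₂ fun a x => by simp [Md.addC]) (funext fun x => by simp) rfl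

theorem cv_zero' : cv c 0 0 = c := (cv_zero 0).trans (cfg_ext rfl rfl (Subsingleton.elim _ _))

theorem base_cv (v : M → Cf ι (Fin c.m.N)) (p : Pz r) :
    base (cv c v p).W (cv c v p).Φ = fun x => base c.W c.Φ x + v x :=
  funext fun x => base_add c.W c.Φ x v

theorem var_cv (v v' : M → Cf ι (Fin c.m.N)) (p w : Pz r) (s : ℝ) :
    var (cv c v p) (fun x => fa (v' x)) (fun x => fp (v' x)) w s = cv c (v + s • v') (p + s • w) :=
  cfg_ext (funext₂ fun a x => by simp [Md.addC, add_assoc]) (funext fun x => by simp [add_assoc]) rfl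

/-- the infinitesimal gauge action on a smooth section -/
theorem op_d0 {κ : Type} [Fintype κ] [DecidableEq κ] {d : Bd M ι κ} {F : Fr I M ι} (h : d.Hy F F)
    (W : ι → M → En κ) (Φ : M → Eu κ) (η : Sec I d.g) (x : M) :
    F.op (d.d0 F (base W Φ)).σ (d.d0 F (base W Φ)).B η.1 x =
      d.pC x (i1 _ _ (WithLp.toLp 2 fun a => -Wz78.nab I F.e (fun a y => adc (W a y)) a η.1 x) +
        i2 _ _ (opL (η.1 x) (Φ x))) := by
  refine (op_cut F.toPre h.cg.choose_spec.1 η.2.1 η.2.2.2 x).trans (congrArg _ (ext2 ?_ ?_))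
  · refine fm_ext fun a => ?_
    have := Ell97.sum_P_D F a η.1 x
    rw [h.P] at this
    simpa [Pre.op, σ0, ea_apply, fa_l0, Wz78.nab, D_def, add_comm] using this
  · simp [Pre.op, σ0, fp_l0]

variable [CompactSpace M]

theorem hy_bdm (hB : B.OK I) (hG : G.OK B) (ht : ∃ C, G.F.Tame C) {m : Md M ι lam}
    (H : m.OK I B) : (bdm B m).Hy G.F G.F := by
  refine ⟨⟨ht, ht, Prm93.cmp_compact _ _⟩, ⟨fun x => ⟨hB.pr x, hB.rk x,
      fun a b c d => hB.o12 a b c d x, fun a b c d => hB.o23 a b c d x,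
      fun a b c d => hB.o34 a b c d x, fun a b c d => hB.oP a b c d x, hB.onm x⟩,
    ⟨Wz78.pg_pg, Wz78.inner_pg⟩, fun _ => rfl, fun _ => rfl,
    ⟨fun x => ap (Wz78.pp_pp hB H x), Wz78.pp_sym hB H⟩,
    ⟨fun x => ap (Wz78.pm_pm hB H x), Wz78.pm_sym hB H⟩, H.ρsk, fun a x => (H.cl x).proj a,
    fun a b x v => (ap ((H.cl x).rel a b) _).trans
      (congrArg ((-2 * B.P a b x) • ·) (ap (Wz78.p_pp H x) v)),
    fun a b x v => (ap ((H.cl x).rel a b) _).trans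
      (congrArg ((-2 * B.P a b x) • ·) (ap (Wz78.p_pm H x) v)),
    fun a x v => (ap (Wz78.pm_rho hB H a x) _).trans
      (congrArg (m.ρ a x) (ap (Wz78.pp_pp hB H x) v)),
    fun a x v => (ap (Wz78.pp_rho hB H a x) _).trans
      (congrArg (m.ρ a x) (ap (Wz78.pm_pm hB H x) v))⟩,
    hG.P, fun a b => Cb_of_compact (hB.sP a b), fun a => Cb_of_compact (H.sρ a),
    Cb_of_compact (Std94.sm_pg hB H), Cb_of_compact (Std94.sm_p1 hB H),
    Cb_of_compact (Std94.sm_p2 hB H), Cb_of_compact (Std94.sm_pp hB H),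
    Cb_of_compact (Std94.sm_pm hB H)⟩

theorem cb_base (h : Ad0 c B G) : G.F.Cb (base c.W c.Φ) :=
  Cls.base (K := cb (fun _ : Unit => G.F.toPre) Set.univ) (W := fun _ => c.W) (Φ := fun _ => c.Φ)
    (fun a _ _ => Cb_of_compact (h.conn.cc.sm a)) (fun _ _ => Cb_of_compact h.sm) () trivial

omit [CompactSpace M] in
theorem p1_sum {m : Md M ι lam} {x : M} {α : Fm ι m.A} (h : m.p1 B x α = α) (a : ι) :
    α a ∈ m.gS x ∧ ∑ b, B.P a b x • α b = α a := by
  have h1 : ∀ a, α a ∈ m.gS x := fun a => h ▸ p1_mem x α a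
  refine ⟨h1 a, ?_⟩
  conv_rhs => rw [← h, Md.p1, Eqv71.idx_apply]
  simp only [Wz78.pg_of_mem (h1 _)]

omit [CompactSpace M] in
theorem ad0_cv (h : Ad0 c B G) (v : Sec I (bdm B c.m).pC) (p : Pz r) :
    Ad0 (cv c v.1 p) B G :=
  have h1 := fun x => p1_sum (maps_f2 x _ (v.2.2.2 x))
  ⟨h.ok, Mod61.isConn_addC h.ok h.conn (fun a => ((Grp76.pj _ a ∘L fa).contMDiff.comp v.2.1))
    (fun x a => (h1 x a).1) fun x a => (h1 x a).2, h.sm.add (fp.contMDiff.comp v.2.1),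
    fun x => (map_add _ _ _).trans (congrArg₂ (· + ·) (h.pos x) (maps_s2 x _ (v.2.2.2 x)))⟩

/-- naturality -/
theorem Wp.nat (hB : B.OK I) (hG : G.OK B) (ht : ∃ C, G.F.Tame C) {τ : Pt M ι lam r n}
    (h : Wp B G.F τ) {c c' : Cfg M ι lam r} (a : Ad0 c B G) (a' : Ad0 c' B G)
    {u : M → CL c.m.V c'.m.V} {ζ : Circle} (e : Ce B G.F c c' u ζ) :
    (∀ x, c'.eD G τ x = cs c'.m.J ζ (u x (c.eD G τ x))) ∧
    (∀ x s, c'.eC B G τ x s = cj (u x) (c.eC B G τ x s)) ∧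
    ∀ i, τ.S c' i = (ζ : ℂ) ^ 2 * τ.S c i := by
  have p : PNat B G univ τ := by
    induction h with
    | wpt T w h => exact wpt_nat hB hG isClopen_univ (Mp86.bumps_of_compact) h w
    | add _ _ h1 h2 => exact h1.add h2
  obtain ⟨a1, a2, a3, -⟩ := natOn_of_pnat (m := 0) (τ := ⟨τ, fun _ => 0⟩) hB hG isOpen_univ
    subset_rfl (fun c h => ex_of_compact hB hG ht.choose_spec isClopen_univ h) p
    (fun _ _ _ _ _ => rfl) c c' u ζ a.adm0 a'.adm0 (by simp) (by simp) e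
  obtain ⟨b1, b2, -⟩ := natOn_eq0 (n := 0) (m := 0) hB hG isOpen_univ subset_rfl c c' u ζ a.adm0
    a'.adm0 (by simp) (by simp) e
  refine ⟨fun x => ?_, fun x s => ?_, a3⟩
  · refine (congrArg₂ (· - ·) (b1 x trivial) (a1 x trivial)).trans ?_
    simp only [← csL_apply, ← map_sub]
    rfl
  · refine (congrArg₂ (· - ·) (b2 x trivial s) (a2 x trivial s)).trans ?_
    simp only [← map_sub]
    rfl

end Crest.Agent.X212.Top68
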