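import Crest.Agent.X212.Top68.Ker
import Crest.Agent.X212.Spn45.Aff

/-! The dictionary of the terms; scaling; coordinates of a converging family. -/

set_option autoImplicit false
set_option linter.unusedSectionVars false
noncomputable section
open scoped Manifold ContDiff Topology InnerProductSpace
open MeasureTheory Set Function Filter

namespace Crest.Agent.X212.Top68
open An An.Pre Sob92 Abel74 Map77 Eqv71
open Eq82 (var vD vC Ed fz wz Rig SLim)
open Cmp73 (Cv)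

variable {E : Type} [NormedAddCommGroup E] [NormedSpace ℝ E] [FiniteDimensional ℝ E]
  [MeasurableSpace E] [BorelSpace E]
  {HM : Type} [TopologicalSpace HM] {I : ModelWithCorners ℝ E HM} [I.Boundaryless]
  {M : Type} [TopologicalSpace M] [ChartedSpace HM M] [IsManifold I ∞ M]
  [MeasurableSpace M] [T2Space M] [BorelSpace M] [SecondCountableTopology M]
  {ι : Type} [Fintype ι] {lam : Type} [Fintype lam] {r r' n n' k : ℕ}
  {B : Base M ι lam} {G : Geo I M ι lam} {F : Fr I M ι}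

section z
variable {m : Md M ι lam} (W : m.Cn) (Φ : M → m.V) (z : Pz r) (z' : Pz r')

theorem sw_z (w : SW M) : Cfg.sw ⟨m, W, Φ, z⟩ F w = Cfg.sw ⟨m, W, Φ, z'⟩ F w :=
  congrArg (fun f => Wrd81.wd f Φ w) (funext fun t => by cases t <;> rfl :
    Cfg.lt ⟨m, W, Φ, z⟩ F = Cfg.lt ⟨m, W, Φ, z'⟩ F)

theorem aw_z (ξ : AW M) : Cfg.aw ⟨m, W, Φ, z⟩ F ξ = Cfg.aw ⟨m, W, Φ, z'⟩ F ξ := by
  have h1 : Cfg.la ⟨m, W, Φ, z⟩ F = Cfg.la ⟨m, W, Φ, z'⟩ F := funext fun t => by cases t <;> rfl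
  have h2 : Cfg.sd ⟨m, W, Φ, z⟩ F ξ.s = Cfg.sd ⟨m, W, Φ, z'⟩ F ξ.s := by
    cases ξ.s
    · simp only [Cfg.sd, sw_z W Φ z z']
    · rfl
  exact congrArg₂ (fun f s => Wrd81.wd f s ξ.l) h1 h2

theorem sg_z (g : Sg M lam) : Cfg.sg ⟨m, W, Φ, z⟩ F g = Cfg.sg ⟨m, W, Φ, z'⟩ F g := by
  simp only [Cfg.sg, sw_z W Φ z z']

theorem val_z (w : LT M lam) (a : ℂ) :
    w.val B F ⟨m, W, Φ, z⟩ a = w.val B F ⟨m, W, Φ, z'⟩ a := by
  funext x
  cases w <;> simp only [LT.val, sw_z W Φ z z']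

theorem ev_pt (D : Ed M) (w : Fin D.N → ℝ) :
    ev B G (D.pt B G.F w r n) ⟨m, W, Φ, z⟩ = ev B G (D.pt B G.F w r' n') ⟨m, W, Φ, z'⟩ := by
  funext x
  simp only [ev, Cfg.eD, Cfg.eC, Ed.pt, wpt, Ed.tm, Cfg.tC, Cfg.tD, Cfg.aws, aw_z W Φ z z']

end z

theorem pt_S (D : Ed M) (w : Fin D.N → ℝ) (c : Cfg M ι lam r) (i : Fin n) :
    (D.pt B F w r n).S c i = 0 := by simp [Ed.pt, wpt, Ed.tm, Cfg.tS]

theorem ev_add (τ τ' : Pt M ι lam r n) (c : Cfg M ι lam r) (x : M) : ev B G (τ.add τ') c x =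
    ev B G τ c x - (i1 _ _ (τ'.D c x) + i2 _ _ (τ'.C c x)) := by
  simp only [ev, Cfg.eD, Cfg.eC, Pt.add, map_sub, map_add]
  abel

theorem ev_add0 (τ τ' : Pt M ι lam r n) (c : Cfg M ι lam r) (h1 : ∀ x, τ'.D c x = 0)
    (h2 : ∀ x, τ'.C c x = 0) : ev B G (τ.add τ') c = ev B G τ c :=
  funext fun x => by simp [ev_add, h1, h2]

theorem ev_tm {K : Type} [Fintype K] (τ : Pt M ι lam r n) (w : K → LT M lam) (i : K → Fin r)
    (v : K → ℝ) (c : Cfg M ι lam r) (x : M) :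
    ev B G (τ.add (wpt B G.F (fun k => (w k).tm n (i k)) v)) c x =
      ev B G τ c x - ∑ k, v k • (w k).val B G.F c (c.z (i k)) x := by
  rw [ev_add]
  simp only [wpt, map_sum, map_smul, ← Finset.sum_add_distrib, ← smul_add]
  refine congrArg _ (Finset.sum_congr rfl fun k _ => congrArg _ ?_)
  cases w k
  · exact (congrArg _ (map_zero _)).trans (add_zero _)
  · exact (congrArg (· + _) (map_zero _)).trans (zero_add _)

theorem tm_S {K : Type} [Fintype K] (w : K → LT M lam) (i : K → Fin r) (v : K → ℝ)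
    (c : Cfg M ι lam r) (a : Fin n) : (wpt B F (fun k => (w k).tm n (i k)) v).S c a = 0 :=
  Finset.sum_eq_zero fun k _ => by
    beta_reduce
    cases w k <;> exact mul_zero (v k : ℂ)

theorem LT.OK.tm {w : LT M lam} (h : w.OK F) (i : Fin r) : (w.tm n i).OK F := by
  cases w <;> exact h

theorem LT.val_lin (w : LT M lam) (c : Cfg M ι lam r) (x : M) :
    IsLinearMap ℝ fun z => w.val B F c z x := by
  have h1 : ∀ (a b : ℂ) (y : c.m.V), cs c.m.J (a + b) y = cs c.m.J a y + cs c.m.J b y :=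
    fun a b y => by simp only [cs, Complex.add_re, Complex.add_im]; module
  have h2 : ∀ (t : ℝ) (a : ℂ) (y : c.m.V), cs c.m.J (t • a) y = t • cs c.m.J a y :=
    fun t a y => by simp only [cs, Complex.smul_re, Complex.smul_im, smul_eq_mul]; module
  have h3 : ∀ y y' u : c.m.V, rk1 (y + y') u = rk1 y u + rk1 y' u := fun y y' u =>
    ContinuousLinearMap.ext fun w => smul_add ⟪u, w⟫_ℝ y y'
  have h4 : ∀ (t : ℝ) (y u : c.m.V), rk1 (t • y) u = t • rk1 y u := fun t y u =>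
    ContinuousLinearMap.ext fun w => smul_comm ⟪u, w⟫_ℝ t y
  cases w
  · exact ⟨fun a b => by simp only [LT.val, h1, map_add], fun t a => by
      simp only [LT.val, h2, map_smul]⟩
  · refine ⟨fun a b => ?_, fun t a => ?_⟩
    · simp only [LT.val, ← map_add]
      exact congrArg _ (congrArg _ (fm_ext fun s => by simp [h1, h3, Md.q]))
    · simp only [LT.val, ← map_smul]
      exact congrArg _ (congrArg _ (fm_ext fun s => by
        simp only [h2, h4, Md.q, map_smul, PiLp.smul_apply, smul_comm t]))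

variable (B) in
/-- multiplication of the section of the line by `i` -/
def LT.rot : LT M lam → LT M lam
  | .a s u => .a (fun x => B.il (s x)) u
  | .b s g h u v => .b (fun x => B.il (s x)) g h u v

theorem LT.val_rot (w : LT M lam) {c : Cfg M ι lam r} (H : c.m.OK I B) (z : ℂ) (x : M) :
    (w.rot B).val B F c z x = w.val B F c (Complex.I * z) x := by
  have : ∀ s y, cs c.m.J z (c.m.j x (B.il s) y) = cs c.m.J (Complex.I * z) (c.m.j x s y) :=
    fun s y => by rw [mul_comm, ← cs_mul H.Jsq, H.jil]; simp [cs]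
  cases w <;> simp only [LT.rot, LT.val, this]

theorem LT.OK.rot [CompactSpace M] {w : LT M lam} (h : w.OK F) : (w.rot B).OK F := by
  cases w
  · exact ⟨trivial, Cb_of_compact (B.il.contMDiff.comp h.2.1.choose_spec.1), h.2.2⟩
  · exact ⟨trivial, Cb_of_compact (B.il.contMDiff.comp h.2.1.choose_spec.1), h.2.2⟩

/-- a complex matrix of coefficients as a real combination of terms -/
theorem exists_tm [CompactSpace M] {m : ℕ} {w : Fin m → LT M lam} (hw : ∀ b, (w b).OK F)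
    (A : Pz r →L[ℂ] Pz m) : ∃ (K : ℕ) (w' : Fin K → LT M lam) (i : Fin K → Fin r) (v : Fin K → ℝ),
    (∀ k, (w' k).OK F) ∧ ∀ (c : Cfg M ι lam r) (p : Pz r) (x : M), c.m.OK I B →
      ∑ k, v k • (w' k).val B F c (p (i k)) x = ∑ b, (w b).val B F c (A p b) x := by
  let e := (Fintype.equivFin (Fin m × Fin r × Bool)).symm
  let a : Fin m → Fin r → ℂ := fun b i => A (EuclideanSpace.single i 1) b
  refine ⟨_, fun k => bif (e k).2.2 then w (e k).1 else (w (e k).1).rot B, fun k => (e k).2.1,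
    fun k => bif (e k).2.2 then (a (e k).1 (e k).2.1).re else (a (e k).1 (e k).2.1).im,
    fun k => by beta_reduce; cases (e k).2.2; exacts [(hw _).rot, hw _], fun c p x H => ?_⟩
  rw [e.sum_comp fun q => (bif q.2.2 then (a q.1 q.2.1).re else (a q.1 q.2.1).im) •
    (bif q.2.2 then w q.1 else (w q.1).rot B).val B F c (p q.2.1) x, Fintype.sum_prod_type]
  refine Finset.sum_congr rfl fun b _ => ?_
  have h1 : A p b = ∑ i, ((a b i).re • p i + (a b i).im • (Complex.I * p i)) := by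
    conv_lhs => rw [← (EuclideanSpace.basisFun (Fin r) ℂ).sum_repr p]
    simp only [map_sum, map_smul, WithLp.ofLp_sum, Finset.sum_apply, PiLp.smul_apply,
      EuclideanSpace.basisFun_repr, EuclideanSpace.basisFun_apply]
    refine Finset.sum_congr rfl fun i _ => ?_
    change p i * a b i = _
    conv_lhs => rw [← Complex.re_add_im (a b i)]
    simp only [Complex.real_smul]; ring
  let L := IsLinearMap.mk' _ ((w b).val_lin (B := B) (F := F) c x)
  change _ = L _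
  simp only [h1, map_sum, map_add, map_smul, Fintype.sum_prod_type, Fintype.sum_bool, cond_true,
    cond_false, LT.val_rot _ H]
  rfl

/-! ### scaling -/

section scal
variable {τ τ' : Pt M ι lam r n} {e : ℝ} {m : Md M ι lam}
  (h1 : ∀ W Φ z, ev B G τ ⟨m, W, Φ, z⟩ = ev B G τ' ⟨m, W, Φ, e • z⟩)
  (h2 : ∀ W Φ z, τ.S ⟨m, W, Φ, z⟩ = τ'.S ⟨m, W, Φ, e • z⟩) {W : m.Cn} {Φ : M → m.V} {z : Pz r}
include h1 h2

theorem zr_scal : Zr B G τ ⟨m, W, Φ, z⟩ ↔ Zr B G τ' ⟨m, W, Φ, e • z⟩ := by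
  have := ev_zero.symm.trans ((h1 W Φ z).congr_left.trans ev_zero)
  exact ⟨fun a => ⟨(this.1 ⟨a.D, a.C⟩).1, (this.1 ⟨a.D, a.C⟩).2, fun i => h2 W Φ z ▸ a.S i⟩,
    fun a => ⟨(this.2 ⟨a.D, a.C⟩).1, (this.2 ⟨a.D, a.C⟩).2, fun i => (h2 W Φ z).symm ▸ a.S i⟩⟩

theorem rig_scal (he : e ≠ 0) (h : Rig B G τ' ⟨m, W, Φ, e • z⟩) : Rig B G τ ⟨m, W, Φ, z⟩ := by
  intro α φ q t1 p1 t2 p2 hq e1 e2 e3
  have b : ∀ s : ℝ, e • (z + s • q) = e • z + s • e • q := fun s => by module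
  have a : ∀ s x, ev B G τ (var ⟨m, W, Φ, z⟩ α φ q s) x =
      ev B G τ' (var ⟨m, W, Φ, e • z⟩ α φ (e • q) s) x := fun s =>
    congrFun ((h1 _ _ _).trans (ev_congr (cfg_ext rfl rfl (b s))))
  obtain ⟨η, θ, a1, a2, a3, a4, a5⟩ := h α φ (e • q) t1 p1 t2 p2
    (by simp only [Kur.rsmul, inner_smul_left, inner_smul_right, Complex.conj_ofReal,
      Complex.re_ofReal_mul, show (⟪z, q⟫_ℂ).re = 0 from hq, mul_zero])
    (fun x => (e1 x).congr_of_eventuallyEq (.of_forall fun s => (f2_ev (B := B) _ _ x).symm.trans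
      ((congrArg (f2 m.V (Fm (ι × ι) m.A)) (a s x).symm).trans (f2_ev _ _ x))))
    (fun x t => (e2 x t).congr_of_eventuallyEq (.of_forall fun s => congrArg (· t)
      ((s2_ev _ _ x).symm.trans ((congrArg (s2 m.V (Fm (ι × ι) m.A)) (a s x).symm).trans
        (s2_ev _ _ x)))))
    fun i => (e3 i).congr_of_eventuallyEq (.of_forall fun s => congrFun
      ((h2 _ _ _).trans (congrArg τ'.S (cfg_ext rfl rfl (b s)))).symm i)
  exact ⟨η, θ, a1, a2, a3, a4, smul_right_injective _ he (a5.trans (smul_comm _ _ _))⟩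

end scal

/-! ### coordinates -/

theorem sm_sub {Y : Type} [NormedAddCommGroup Y] [NormedSpace ℝ Y] {f g : M → Y} (h1 : Sm I f)
    (h2 : Sm I g) : Sm I fun x => f x - g x := h1.sub h2

variable [CompactSpace M] {c : Cfg M ι lam 0} {ξ : M → c.m.A} (h : TP B G c ξ)
include h

theorem TP.crd {W : c.m.Cn} {Φ : M → c.m.V} {z : Pz r} (b : Ad0 ⟨c.m, W, Φ, z⟩ B G) :
    ∃ v : SB I c B, (v.1 = fun x => i1 _ _ (Spn45.dif c.m c.W W x) + i2 _ _ (Φ x - c.Φ x)) ∧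
      Cfg.Iso B G.F ⟨c.m, W, Φ, z⟩ (cv c v.1 z) := by
  have bc : c.m.IsConn B G W := b.conn
  let v : SB I c B := mkS (α := Spn45.dif c.m c.W W) (Spn45.sm_dif h.ad.ok h.ad.conn bc)
    (Spn45.p1_dif h.ad.conn bc h.ad.ok) (φ := fun x => Φ x - c.Φ x) (sm_sub b.sm h.ad.sm) fun x =>
      (map_sub _ _ _).trans (congrArg₂ (· - ·) (b.pos x) (h.ad.pos x))
  refine ⟨v, rfl, IsoOn.symm h.hB h.hG isOpen_univ (h.a0 v _) b ⟨c.m.p, 1,
    (ceq_refl h.hB h.hG b isOpen_univ).m, Spn45.par_p bc h.hB fun a x => ?_, fun x _ => ?_, by simp⟩⟩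
  · simpa [v, mkS, Md.addC] using Spn45.p_addC_dif (W := c.W) (W' := W) (x := x) h.ad.ok a
  · rw [p_Φ (h.a0 v _)]; simp [v, mkS]

theorem TP.slim {α : Type} {l : Filter α} {c' : α → Cfg M ι lam r}
    (ad : ∀ᶠ i in l, Ad0 (c' i) B G) (hs : SLim B l (fun _ => G) (fun i => fz (c' i)) c) :
    ∃ (v : α → SB I c B) (z : α → Pz r), Tendsto (fun i => tH G k (v i)) l (𝓝 0) ∧
      ∀ᶠ i in l, ‖z i‖ = ‖(c' i).z‖ ∧ Cfg.Iso B G.F (c' i) (cv c (v i).1 (z i)) := by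
  rcases l.eq_or_neBot with rfl | _
  · exact ⟨0, 0, tendsto_bot, eventually_bot⟩
  obtain ⟨W, Φ, z, h1, h2, h3, -⟩ := hs
  let y : α → M → Cf ι (Fin c.m.N) := fun i x =>
    i1 _ _ (Spn45.dif c.m c.W (W i) x) + i2 _ _ (Φ i x - c.Φ x)
  have : ∀ᶠ i in l, ∃ q : SB I c B × Pz r, q.1.1 = y i ∧ ‖q.2‖ = ‖(c' i).z‖ ∧
      Cfg.Iso B G.F (c' i) (cv c q.1.1 q.2) := by
    filter_upwards [ad, h1] with i a ⟨b, u, ζ, e⟩
    have b' : Ad0 ⟨c.m, W i, Φ i, ((ζ : ℂ) ^ 2) • (c' i).z⟩ B G := ⟨b.ok, b.conn, b.sm, b.pos⟩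
    have e' : Ce B G.F (c' i) ⟨c.m, W i, Φ i, ((ζ : ℂ) ^ 2) • (c' i).z⟩ u ζ := ⟨e.m, e.W, e.Φ, rfl⟩
    obtain ⟨v, h1, h2⟩ := h.crd b'
    exact ⟨(v, _), h1, ceq_norm_z e', IsoOn.trans h.hB h.hG isOpen_univ a b' (h.a0 v _) ⟨_, _, e'⟩ h2⟩
  obtain ⟨q, hq⟩ := this.choice
  refine ⟨fun i => (q i).1, fun i => (q i).2, ?_, hq.mono fun i a => a.2⟩
  have c1 : Cv I l univ y fun _ => 0 := by
    refine (((Cv.pi fun a => ((Cv.fixed' h.ad.ok.sp).mul ((h2 a).sub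
      (Cv.fixed' (h.ad.conn.cc.sm a)))).clm hsL).clm (i1 (Fm ι c.m.A) c.m.V ∘L
        (PiLp.continuousLinearEquiv 2 ℝ fun _ : ι => c.m.A).symm.toContinuousLinearMap)).add
      ((h3.sub (Cv.fixed' h.ad.sm)).clm (i2 (Fm ι c.m.A) c.m.V))).congr' isOpen_univ
      (.of_forall fun _ _ _ => rfl) fun x _ => ?_
    simp only [sub_self, mul_zero, map_zero, add_zero]
    exact (map_zero _).symm
  refine tendsto_zero_iff_norm_tendsto_zero.2 ((c1.nrm G.F.toPre (k + 1)).congr' ?_)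
  filter_upwards [hq] with i a
  rw [tH, norm_toH, a.1]
  exact congrArg _ (sub_zero _)

end Crest.Agent.X212.Top68
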